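import Vale.Agent.P167.CA.Defs
import Vale.Agent.P167.BR.Intf

/-!
# P167, LOC: decoupling at the base point and the bump functionals (statements)

`D` is a finite set of squares enclosed by a lattice polygon, `p` a base site on a flat piece of the
boundary. For a bump `f` near `p` and a charge `g` far from `p`, both of mass `π / 3`, the functional
`XD D p (f - g)` is, up to events of small probability, the product of the LOCAL functional
`XL p r R f` (a function of the squares of `hbox p R`) and of `ZO D p R g` (a function of the squares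
off `hbox p R`), and `XD D p (-g)` is `ZO D p R g`. Hence
`V_n(f_p - f_a) / V_n(f_p - f_b) ≈ V_n(-f_a) / V_n(-f_b)`, and the neutral identities give the limit of
`V_n(f_b - f_a) V_n(-f_b) / V_n(-f_a)` (`I_E2`).
-/

namespace Vale.Agent.P167.LOC

open Finset MeasureTheory Filter Topology Set
open Vale.Agent.P167.E6 (IsPolygon Encloses)
open Vale.Agent.P167.BR (hbox Flt Vz XZ Iso top Bmp pcs wp mass XD VD sites)
open Vale.Agent.P167.BVP (Test npot)

/-- The local functional of the charge `f` near the base site `b`: the product over the pieces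
visiting the half box of radius `r`, computed in the half box of radius `R` with the charge `- π / 3`
at the middle of its top side; `0` if one of these pieces is not confined. -/
noncomputable def XL (b : ℤ × ℤ) (r R : ℤ) (f : ℤ × ℤ → ℝ) (ω : Cfg) : ℝ :=
  open Classical in
  if Iso b r R ω then
    XZ (hbox b R) b (fun z => f z - if z = top b R then Real.pi / 3 else 0) (hbox b r) ω else 0

open Classical in
/-- The product over the pieces which do not visit the half box of radius `R` at the base site. -/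
noncomputable def ZO (D : Finset (ℤ × ℤ)) (b : ℤ × ℤ) (R : ℤ) (g : ℤ × ℤ → ℝ) (ω : Cfg) : ℝ :=
  ∏ A ∈ (pcs ω D).filter (fun A => ¬ Vz (hbox b R) A), wp D A (mass D b (-g) A)

/-- A nonnegative charge of mass `π / 3` at macroscopic distance from the boundary of `D`. -/
structure Mac (K : ℝ) (N : ℤ) (D : Finset (ℤ × ℤ)) (g : ℤ × ℤ → ℝ) : Prop where
  nonneg : ∀ z, 0 ≤ g z
  le : ∀ z, g z ≤ K / N ^ 2
  supp : ∀ z, g z ≠ 0 → ∀ v : ℤ × ℤ, (nm (v - z) : ℝ) ≤ N / K → v ∈ D
  sum : ∑ᶠ z, g z = Real.pi / 3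

/-- Sixth moments. -/
noncomputable def m6 (X : Cfg → ℝ) : ℝ := ∫ ω, |X ω| ^ 6 ∂μ

/-- **(LOC2)** Moments of the functionals of a bump `f` of scale `r` at the base site `q 0` and of a
macroscopic charge `g`, `D` of size `N`, flat at the base site up to distance `N / K`. The constant does
not depend on the scale of the bump. -/
def S_loc2 : Prop := ∀ K : ℝ, 0 < K → ∃ (C : ℝ) (r₀ : ℤ), 0 < r₀ ∧
  ∀ (n : ℕ) (q : ZMod n → ℤ × ℤ) (D : Finset (ℤ × ℤ)), IsPolygon q → Encloses q D →
  ∀ (r R N : ℤ) (f g : ℤ × ℤ → ℝ), r₀ ≤ r → 2 * r ≤ R → K * R ≤ N →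
    Flt D (q 0) ⌊N / K⌋ → (∀ v ∈ D, (nm (v - q 0) : ℝ) ≤ K * N) →
    Bmp K (q 0) r f → Mac K N D g →
    m6 (XD D (q 0) (g - f)) * m6 (XD D (q 0) (f - g)) ≤ C ∧
    m6 (XD D (q 0) (g - f)) * m6 (XL (q 0) r R f) * m6 (XD D (q 0) (-g)) ≤ C ∧
    m6 (XD D (q 0) (g - f)) * m6 (XL (q 0) r R f) * m6 (ZO D (q 0) R g) ≤ C

/-- Confinement (from the two-arm bound). -/
def S_iso : Prop := ∃ C : ℝ, ∀ (b : ℤ × ℤ) (r R : ℤ), 1 ≤ r → r ≤ R →
  μ.real {ω | ¬ Iso b r R ω} ≤ C * ((r : ℝ) / R)

/-- **(E2)** The limit of the bump functionals: `f_a`, `f_b` smooth charges of mass `π / 3` in the open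
domain, the base point of `S` on a horizontal side with the domain above, `ψ(∞)` the base point. -/
def I_E2 : Prop :=
  ∀ (S : CA.Dat) (ψ g : ℂ → ℂ), S.r = 0 → CA.Pair S.P ψ g →
    Tendsto ψ (Bornology.cobounded ℂ ⊓ 𝓟 {z | 0 ≤ z.im}) (𝓝 S.bp) →
    ∀ fa fb : ℂ → ℝ, Test S.P fa → Test S.P fb → (∀ z, 0 ≤ fa z) → (∀ z, 0 ≤ fb z) →
    ∫ z, fa z = Real.pi / 3 → ∫ z, fb z = Real.pi / 3 →
    Tendsto (fun n : ℕ => S.V n (fun z => fb z - fa z) * S.V n (fun z => - fb z) /
      S.V n (fun z => - fa z)) atTop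
      (𝓝 (Real.exp (CA.sc * (CA.en g fa fb - CA.en g fb fb))))

end Vale.Agent.P167.LOC
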