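import Vale.Agent.P167.CL.TopDefs
import Vale.Agent.P167.LOC.Defs

/-!
# P167, LOC: decoupling at the base point, in the form used for `I_E2`
-/

namespace Vale.Agent.P167.LOC

open Finset MeasureTheory Filter Topology Set
open Vale.Agent.P167.BVP (Test)

/-- **(LOC1)** Decoupling at the base point, with the dual functional as normalisation: the factor `Y`
does not depend on the charge `f`. -/
def I_loc1 : Prop := ∀ (S : CA.Dat), S.r = 0 → ∀ χ : ℂ → ℝ, CL.Bmp0 χ → ∃ Y : ℝ → ℕ → ℝ,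
  ∀ f : ℂ → ℝ, Test S.P f → (∀ z, 0 ≤ f z) → ∫ z, f z = Real.pi / 3 →
    ∃ C : ℝ, ∀ᶠ ρ : ℝ in 𝓝[>] 0, ∀ᶠ n : ℕ in atTop,
      |S.V n (fun z => CL.bmp χ S.bp ρ z - f z) - Y ρ n * S.V n (fun z => - f z)| *
        |S.V n (fun z => f z - CL.bmp χ S.bp ρ z)| ≤ C * ρ ^ (5 / 12 : ℝ)

end Vale.Agent.P167.LOC
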