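import Vale.Agent.P167.LOC.Main
import Vale.Agent.P167.H562.MAJ7

/-!
# P167, LOC: `I_loc1`, unconditionally
-/

namespace Vale.Agent.P167.LOC

/-- **(LOC2)** -/
theorem s_loc2z : S_loc2z := by
  intro K hK
  obtain ⟨C, r₀, hr₀, h⟩ := H562.MAJ.loc2 K hK
  refine ⟨C, r₀, hr₀, fun n q D hq hD r R N f g Z h1 h2 h3 h4 h5 h6 h7 => ?_⟩
  exact h n q D hq hD r R N f g Z h1 h2 h3 h4 h5 h6
    { nonneg := h7.nonneg
      le := h7.le
      sum := h7.sum
      econ := h7.conn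
      supp := h7.site
      nbhd := h7.deep }

/-- **(LOC1)** -/
theorem i_loc1' : I_loc1 := i_loc1 s_loc2z

end Vale.Agent.P167.LOC
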