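import Vale.Agent.P167.BR.Split
import Vale.Agent.P167.LOC.Defs

/-!
# P167, LOC: the potential of a confined piece far from the base site
-/

namespace Vale.Agent.P167.LOC

open Finset Vale.Agent.P145.FB Vale.Agent.P167.H632
open Vale.Agent.P167.E6 (IsPolygon Encloses dir face)
open Vale.Agent.P167.E2 Relation
open Vale.Agent.P167.BR

variable {ω : Cfg} {D : Finset (ℤ × ℤ)} {A : Finset Ed} {b : ℤ × ℤ} {R : ℤ}
  {n : ℕ} {q : ZMod n → ℤ × ℤ}

/-- A site of `D` is a boundary site or all its four squares are in `D`. -/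
theorem site_dich (hD : Encloses q D) {z : ℤ × ℤ} (hz : z ∈ sites D) :
    (∃ i, q i = z) ∨ ∀ r, face z r ∈ D := by
  by_cases h : ∀ r, face z r ∈ D
  · exact Or.inr h
  · left
    by_contra hno
    push Not at hno
    have hstep : ∀ r, face z r ∈ D → face z (r - 1) ∈ D := by
      intro r h1
      by_contra h2
      obtain ⟨i, hi, -⟩ := (hD z r).2 ⟨h1, h2⟩
      exact hno i hi
    obtain ⟨v, hv, h1, h2⟩ := mem_sites.1 hz
    have hone : ∃ r, face z r ∈ D := by
      rcases h1 with h1 | h1 <;> rcases h2 with h2 | h2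
      · refine ⟨0, ?_⟩
        rw [face0, h1, h2]; exact hv
      · refine ⟨3, ?_⟩
        rw [face3, h1, h2, add_sub_cancel_right]; exact hv
      · refine ⟨1, ?_⟩
        rw [face1, h1, h2, add_sub_cancel_right]; exact hv
      · refine ⟨2, ?_⟩
        rw [face2, h1, h2, add_sub_cancel_right, add_sub_cancel_right]; exact hv
    obtain ⟨r, hr⟩ := hone
    have h3 := hstep _ hr
    have h4 := hstep _ h3
    have h5 := hstep _ h4
    apply h
    revert hr h3 h4 h5
    revert r
    refine forall4 ?_ ?_ ?_ ?_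
    · rw [f4_0m, f4_3m, f4_2m]
      intro a0 a3 a2 a1
      exact forall4 a0 a1 a2 a3
    · rw [f4_1m, f4_0m, f4_3m]
      intro a1 a0 a3 a2
      exact forall4 a0 a1 a2 a3
    · rw [f4_2m, f4_1m, f4_0m]
      intro a2 a1 a0 a3
      exact forall4 a0 a1 a2 a3
    · rw [f4_3m, f4_2m, f4_1m]
      intro a3 a2 a1 a0
      exact forall4 a0 a1 a2 a3

theorem dir_corner (z : ℤ × ℤ) (r : Fin 4) :
    ((z + dir r).1 = (face z r).1 ∨ (z + dir r).1 = (face z r).1 + 1) ∧
      ((z + dir r).2 = (face z r).2 ∨ (z + dir r).2 = (face z r).2 + 1) := by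
  obtain ⟨x, y⟩ := z
  revert r
  refine forall4 ?_ ?_ ?_ ?_
  · rw [face0, dir0]; simp
  · rw [face1, dir1]; simp
  · rw [face2, dir2]; simp; omega
  · rw [face3, dir3]; simp; omega

theorem smul_dir_inj (r : Fin 4) : ∀ m m' : ℤ, m • dir r = m' • dir r → m = m' := by
  revert r
  refine forall4 ?_ ?_ ?_ ?_ <;> intro m m' h <;> have h3 := congrArg Prod.fst h <;>
    have h4 := congrArg Prod.snd h <;>
    simp only [dir0, dir1, dir2, dir3, Prod.smul_fst, Prod.smul_snd, smul_eq_mul] at h3 h4 <;>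
    omega

/-- Induction along rays which leave `D`. -/
theorem ray_ind (hD : Encloses q D) {P G : ℤ × ℤ → Prop} {r : Fin 4}
    (hG : ∀ z, G z → G (z + dir r)) (hb : ∀ i, G (q i) → P (q i))
    (hs : ∀ z, G z → (∀ r', face z r' ∈ D) → P (z + dir r) → P z) {z : ℤ × ℤ}
    (hz : z ∈ sites D) (hGz : G z) : P z := by
  have key : ∀ (m : ℕ) (z : ℤ × ℤ), z ∈ sites D → G z → z + (m : ℤ) • dir r ∉ sites D → P z := by
    intro m
    induction m with
    | zero =>
      intro z hz _ h
      exact absurd (by simpa using hz) h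
    | succ m ih =>
      intro z hz hGz h
      rcases site_dich hD hz with ⟨i, rfl⟩ | h1
      · exact hb i hGz
      · refine hs z hGz h1 (ih (z + dir r) ?_ (hG z hGz) ?_)
        · exact mem_sites.2 ⟨_, h1 r, dir_corner z r⟩
        · have e : z + dir r + (m : ℤ) • dir r = z + ((m + 1 : ℕ) : ℤ) • dir r := by
            push_cast
            rw [add_smul, one_smul]
            abel
          rw [e]
          exact h
  -- the ray leaves the finite set
  have hfin : ∃ m : ℕ, z + (m : ℤ) • dir r ∉ sites D := by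
    by_contra hno
    push Not at hno
    have hinj : Function.Injective fun m : ℕ => (⟨z + (m : ℤ) • dir r, hno m⟩ : sites D) := by
      intro m m' h
      have h1 : z + (m : ℤ) • dir r = z + (m' : ℤ) • dir r := congrArg Subtype.val h
      exact_mod_cast smul_dir_inj _ _ _ (add_left_cancel h1)
    exact not_injective_infinite_finite _ hinj
  obtain ⟨m, hm⟩ := hfin
  exact key m z hz hGz hm

/-- Sites off the half box are in one of four regions which are invariant under a shift. -/
theorem far_ind (hD : Encloses q D) (hR : 1 ≤ R) {P : ℤ × ℤ → Prop}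
    (hb : ∀ i, q i ∉ sites (hbox b R) → P (q i))
    (hs : ∀ (z : ℤ × ℤ) (r : Fin 4), z ∉ sites (hbox b R) → (∀ r', face z r' ∈ D) →
      P (z + dir r) → P z) {z : ℤ × ℤ} (hz : z ∈ sites D) (hz' : z ∉ sites (hbox b R)) : P z := by
  have hno : ∀ z : ℤ × ℤ, (z.1 < b.1 - R ∨ b.1 + R < z.1 ∨ z.2 < b.2 ∨ b.2 + R < z.2) →
      z ∉ sites (hbox b R) := by
    intro z h h'
    rw [mem_sites_hbox hR] at h'
    omega
  have h4 : z.1 < b.1 - R ∨ b.1 + R < z.1 ∨ z.2 < b.2 ∨ b.2 + R < z.2 := by
    by_contra hcon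
    exact hz' ((mem_sites_hbox hR).2 (by omega))
  rcases h4 with h | h | h | h
  · refine ray_ind hD (r := 2) (G := fun z => z.1 < b.1 - R) ?_ (fun i hi => hb i (hno _ (Or.inl hi)))
      (fun z hz => hs z 2 (hno _ (Or.inl hz))) hz h
    intro z hz
    rw [dir2]
    simp only [Prod.fst_add]
    omega
  · refine ray_ind hD (r := 0) (G := fun z => b.1 + R < z.1) ?_
      (fun i hi => hb i (hno _ (Or.inr (Or.inl hi))))
      (fun z hz => hs z 0 (hno _ (Or.inr (Or.inl hz)))) hz h
    intro z hz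
    rw [dir0]
    simp only [Prod.fst_add]
    omega
  · refine ray_ind hD (r := 3) (G := fun z => z.2 < b.2) ?_
      (fun i hi => hb i (hno _ (Or.inr (Or.inr (Or.inl hi)))))
      (fun z hz => hs z 3 (hno _ (Or.inr (Or.inr (Or.inl hz))))) hz h
    intro z hz
    rw [dir3]
    simp only [Prod.snd_add]
    omega
  · refine ray_ind hD (r := 1) (G := fun z => b.2 + R < z.2) ?_
      (fun i hi => hb i (hno _ (Or.inr (Or.inr (Or.inr hi)))))
      (fun z hz => hs z 1 (hno _ (Or.inr (Or.inr (Or.inr hz))))) hz h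
    intro z hz
    rw [dir1]
    simp only [Prod.snd_add]
    omega

/-- If `D` has a site off the half box then the polygon has one. -/
theorem exists_bd_far (hD : Encloses q D) (hR : 1 ≤ R) {z : ℤ × ℤ} (hz : z ∈ sites D)
    (hz' : z ∉ sites (hbox b R)) : ∃ i, q i ∉ sites (hbox b R) :=
  far_ind (P := fun _ => ∃ i, q i ∉ sites (hbox b R)) hD hR (fun i hi => ⟨i, hi⟩)
    (fun _ _ _ _ h => h) hz hz'

variable {l : ℕ}

/-- **The potential of a confined piece is constant far away.** -/
theorem pot_far (hq : IsPolygon q) (hD : Encloses q D) (hF : Flt D (q l) R) (hR : 1 ≤ R) (hl : l < n)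
    (h0 : q 0 ∉ sites (hbox (q l) R)) {u : ℤ × ℤ → ℤ} (hu : PotD D A u)
    (hA : ∀ e ∈ A, e ∈ eds (hbox (q l) R)) (hI : ∀ e ∈ A, Inn (q l) R e) {z : ℤ × ℤ}
    (hz : z ∈ sites D) (hz' : z ∉ sites (hbox (q l) R)) : u z = u (q 0) := by
  have hn : NeZero n := ⟨by have := hq.1; omega⟩
  refine far_ind (b := q l) (P := fun z => u z = u (q 0)) hD hR ?_ ?_ hz hz'
  · intro i hi
    have hi' : q i = q ((i.val : ℕ) : ZMod n) := by rw [ZMod.natCast_zmod_val]
    have hlt := ZMod.val_lt i
    rw [hi'] at hi ⊢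
    refine pot_out hq hD hF hR hl h0 hu hA hI hlt.le ?_
    by_contra hcon
    push Not at hcon
    obtain ⟨h1, h2⟩ := hcon
    apply hi
    rw [mem_sites_hbox hR]
    rcases le_total l i.val with h | h
    · have h3 := (walk hq hD hF (i.val - l) (by omega)).1
      rw [← Nat.cast_add, Nat.add_sub_cancel' h] at h3
      rw [h3]
      simp only [Prod.fst_add, Prod.snd_add]
      omega
    · have h3 := (walk hq hD hF (l - i.val) (by omega)).2
      rw [← Nat.cast_sub (by omega), Nat.sub_sub_self h] at h3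
      rw [h3]
      simp only [Prod.fst_sub, Prod.snd_sub]
      omega
  · intro z r hz hall h
    rw [← h]
    have hce : ce z r ∈ eds D := ce_mem_eds.2 (Or.inl (hall r))
    have hnA : ce z r ∉ A := by
      intro hmem
      apply hz
      have h1 := hA _ hmem
      rcases ce_sides z r with ⟨h2, -⟩ | ⟨h2, -⟩
      · rw [← h2]; exact ls_mem_sites h1
      · rw [← h2]; exact rs_mem_sites h1
    have h3 := hu.eq hce hnA
    rcases ce_sides z r with ⟨h4, h5⟩ | ⟨h4, h5⟩ <;> rw [h4, h5] at h3
    · exact h3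
    · exact h3.symm

theorem isPolygon_rot (hq : IsPolygon q) (c : ZMod n) : IsPolygon fun i => q (i + c) := by
  refine ⟨hq.1, fun i j h => add_right_cancel (hq.2.1 h), fun i => ?_⟩
  obtain ⟨r, hr⟩ := hq.2.2 (i + c)
  refine ⟨r, ?_⟩
  simp only
  rw [← hr]
  congr 1
  ring

theorem encloses_rot (hD : Encloses q D) (c : ZMod n) : Encloses (fun i => q (i + c)) D := by
  intro v r
  rw [← hD v r]
  constructor
  · rintro ⟨i, h1, h2⟩
    refine ⟨i + c, h1, ?_⟩
    rw [← h2]
    simp only
    congr 1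
    ring
  · rintro ⟨i, h1, h2⟩
    refine ⟨i - c, by simp only [sub_add_cancel]; exact h1, ?_⟩
    rw [← h2]
    simp only
    congr 1
    ring

end Vale.Agent.P167.LOC
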