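import Vale.Agent.P167.LOC.Fact
import Vale.Agent.P167.BR.Ind
import Vale.Agent.P167.BR.TwoArm

/-!
# P167, LOC: the decoupling estimate at the base site
-/

namespace Vale.Agent.P167.LOC

open Finset MeasureTheory Vale.Agent.P145.FB Vale.Agent.P167.H632
open Vale.Agent.P167.E6 (IsPolygon Encloses dir face)
open Vale.Agent.P167.E2 Relation
open Vale.Agent.P167.BR

variable {ω ω' : Cfg} {D Z : Finset (ℤ × ℤ)} {A : Finset Ed} {b : ℤ × ℤ} {r R R' : ℤ}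
  {n : ℕ} {q : ZMod n → ℤ × ℤ} {f g : ℤ × ℤ → ℝ}

/-! ### The base site has the index `0` -/

/-- The polygon with the base site at another index. -/
theorem exists_rot (hq : IsPolygon q) (hD : Encloses q D) (hR : 1 ≤ R) {z : ℤ × ℤ}
    (hz : z ∈ sites D) (hz' : z ∉ sites (hbox (q 0) R)) :
    ∃ (q' : ZMod n → ℤ × ℤ) (l : ℕ), IsPolygon q' ∧ Encloses q' D ∧ l < n ∧ q' l = q 0 ∧
      q' 0 ∉ sites (hbox (q' l) R) := by
  have hn : NeZero n := ⟨by have := hq.1; omega⟩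
  obtain ⟨c, hc⟩ := exists_bd_far hD hR hz hz'
  have e : (fun i => q (i + c)) (((-c).val : ℕ) : ZMod n) = q 0 := by
    simp only [ZMod.natCast_zmod_val, neg_add_cancel]
  refine ⟨fun i => q (i + c), (-c).val, isPolygon_rot hq c, encloses_rot hD c, ZMod.val_lt _, e, ?_⟩
  rw [e]
  simpa using hc

theorem fact_both (hq : IsPolygon q) (hD : Encloses q D) (hF : Flt D (q 0) R') (hr : 1 ≤ r)
    (hrR : r ≤ R) (hRR : R ≤ R')
    (hg : ∀ z, g z ≠ 0 → z ∈ sites D ∧ z ∉ sites (hbox (q 0) R')) (hs : ∑ᶠ z, g z = Real.pi / 3)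
    (hI' : Iso (q 0) R R' ω) :
    XD D (q 0) (-g) ω = ZO D (q 0) R g ω ∧
      ∀ f : ℤ × ℤ → ℝ, (∀ z, f z ≠ 0 → z ∈ sites (hbox (q 0) r)) → Iso (q 0) r R ω →
        XD D (q 0) (f - g) ω = XL (q 0) r R f ω * ZO D (q 0) R g ω := by
  obtain ⟨z, hz⟩ : ∃ z, g z ≠ 0 := by
    by_contra hno
    push Not at hno
    rw [finsum_congr hno, finsum_zero] at hs
    have := Real.pi_pos
    linarith
  obtain ⟨q', l, hq', hD', hl, e, h0⟩ := exists_rot hq hD (by omega) (hg z hz).1 (hg z hz).2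
  rw [← e] at hF hg hI' ⊢
  exact ⟨fact_one hq' hD' hF hr hrR hRR hl h0 hI' hg hs, fun f hf hI =>
    fact_two hq' hD' hF hr hrR hRR hl h0 hI hI' hf hg hs⟩

/-! ### Locality -/

theorem dep_XL : DepF (hbox b R) (XL b r R f) := by
  unfold XL
  exact DepF.ite dep_Iso dep_XZ (depF_const _ _)

theorem dep_ZO : DepF (D \ hbox b R) (ZO D b R g) := by
  classical
  intro ω ω' h
  have key : ∀ ω ω' : Cfg, (∀ v ∈ D \ hbox b R, ω v = ω' v) → ∀ A ∈ pcs ω D,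
      ¬ Vz (hbox b R) A → A ∈ pcs ω' D := by
    intro ω ω' h A hA hV
    refine mem_pcs_congr hA fun e he hd => h _ (mem_sdiff.2 ⟨hd, fun h' => hV ⟨e, he, ?_⟩⟩)
    exact mem_eds.2 (Or.inl h')
  unfold ZO
  refine prod_congr ?_ fun _ _ => rfl
  ext A
  rw [mem_filter, mem_filter]
  exact ⟨fun h1 => ⟨key ω ω' h A h1.1 h1.2, h1.2⟩,
    fun h1 => ⟨key ω' ω (fun v hv => (h v hv).symm) A h1.1 h1.2, h1.2⟩⟩

theorem disj_hbox : Disjoint (hbox b R) (D \ hbox b R) := disjoint_sdiff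

/-! ### The estimate -/

/-- The sixth root of the sixth moment. -/
noncomputable def n6 (X : Cfg → ℝ) : ℝ := m6 X ^ (1 / 6 : ℝ)

theorem m6_nonneg (X : Cfg → ℝ) : 0 ≤ m6 X := integral_nonneg fun _ => by positivity

theorem n6_nonneg (X : Cfg → ℝ) : 0 ≤ n6 X := Real.rpow_nonneg (m6_nonneg X) _

theorem abs_int_le {K : Finset (ℤ × ℤ)} {F : Cfg → ℝ} (hF : DepF K F) :
    |∫ w, F w ∂μ| ≤ n6 F := (abs_integral_le_integral_abs).trans (int_le_six hF)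

/-- Two functions which agree off `E`. -/
theorem int_diff {K : Finset (ℤ × ℤ)} {F G : Cfg → ℝ} {E : Set Cfg} (hF : DepF K F)
    (hG : DepF K G) (hE : MeasurableSet E) (h : ∀ w, w ∉ E → F w = G w) :
    |∫ w, F w ∂μ - ∫ w, G w ∂μ| ≤ ∫ w in E, |F w| ∂μ + ∫ w in E, |G w| ∂μ := by
  have e : ∫ w, F w ∂μ - ∫ w, G w ∂μ = ∫ w in E, (F w - G w) ∂μ := by
    rw [← integral_sub hF.int hG.int]
    refine (setIntegral_eq_integral_of_forall_compl_eq_zero fun w hw => ?_).symm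
    rw [h w hw, sub_self]
  rw [e]
  refine (abs_integral_le_integral_abs).trans ?_
  rw [← integral_add hF.abs.int.integrableOn hG.abs.int.integrableOn]
  exact integral_mono_of_nonneg (Filter.Eventually.of_forall fun _ => abs_nonneg _)
    (hF.abs.int.integrableOn.add hG.abs.int.integrableOn)
    (Filter.Eventually.of_forall fun w => abs_sub _ _)

/-- **(LOC1)** Decoupling at the base site. -/
theorem loc1 (hq : IsPolygon q) (hD : Encloses q D) (hF : Flt D (q 0) R') (hr : 1 ≤ r)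
    (hrR : r ≤ R) (hRR : R ≤ R') (hf : ∀ z, f z ≠ 0 → z ∈ sites (hbox (q 0) r))
    (hg : ∀ z, g z ≠ 0 → z ∈ sites D ∧ z ∉ sites (hbox (q 0) R')) (hs : ∑ᶠ z, g z = Real.pi / 3) :
    |VD D (q 0) (f - g) - (∫ ω, XL (q 0) r R f ω ∂μ) * VD D (q 0) (-g)| ≤
      (n6 (XD D (q 0) (f - g)) + 2 * (n6 (XL (q 0) r R f) * n6 (ZO D (q 0) R g)) +
        n6 (XL (q 0) r R f) * n6 (XD D (q 0) (-g))) *
      (μ.real {ω | ¬ Iso (q 0) r R ω} + μ.real {ω | ¬ Iso (q 0) R R' ω}) ^ (5 / 6 : ℝ) := by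
  set L := XL (q 0) r R f with hL
  set Zo := ZO D (q 0) R g with hZo
  set F := XD D (q 0) (f - g) with hFd
  set G := XD D (q 0) (-g) with hGd
  set E1 : Set Cfg := {ω | ¬ Iso (q 0) r R ω} with hE1
  set E2 : Set Cfg := {ω | ¬ Iso (q 0) R R' ω} with hE2
  have hbD : hbox (q 0) R ⊆ D := (hbox_mono hRR).trans (hbox_sub hF)
  have dL : DepF (hbox (q 0) R) L := dep_XL
  have dZ : DepF (D \ hbox (q 0) R) Zo := dep_ZO
  have dF : DepF D F := dep_XD
  have dG : DepF D G := dep_XD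
  have dL' : DepF D L := dL.mono hbD
  have dZ' : DepF D Zo := dZ.mono sdiff_subset
  have dis : Disjoint (hbox (q 0) R) (D \ hbox (q 0) R) := disjoint_sdiff
  have mE1 : MeasurableSet E1 := meas_not_iso _ _ _
  have mE2 : MeasurableSet E2 := meas_not_iso _ _ _
  have mE : MeasurableSet (E1 ∪ E2) := mE1.union mE2
  set P : ℝ := (μ.real E1 + μ.real E2) ^ (5 / 6 : ℝ) with hP
  have hP0 : 0 ≤ P := Real.rpow_nonneg (by positivity) _
  have p1 : μ.real (E1 ∪ E2) ^ (5 / 6 : ℝ) ≤ P :=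
    Real.rpow_le_rpow measureReal_nonneg (measureReal_union_le _ _) (by norm_num)
  have p2 : μ.real E2 ^ (5 / 6 : ℝ) ≤ P :=
    Real.rpow_le_rpow measureReal_nonneg (le_add_of_nonneg_left measureReal_nonneg) (by norm_num)
  -- the first difference
  have a1 : |∫ ω, F ω ∂μ - ∫ ω, L ω * Zo ω ∂μ| ≤ (n6 F + n6 L * n6 Zo) * P := by
    have h1 := int_diff dF (dL'.mul dZ') mE (fun w hw => by
      have hw1 : Iso (q 0) r R w := by
        by_contra h
        exact hw (Or.inl h)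
      have hw2 : Iso (q 0) R R' w := by
        by_contra h
        exact hw (Or.inr h)
      exact (fact_both hq hD hF hr hrR hRR hg hs hw2).2 f hf hw1)
    have h2 := int_on_six dF mE
    have h3 := int_on_six₂ dis dL dZ mE
    simp only [abs_mul] at h1
    calc _ ≤ n6 F * μ.real (E1 ∪ E2) ^ (5 / 6 : ℝ) +
          n6 L * n6 Zo * μ.real (E1 ∪ E2) ^ (5 / 6 : ℝ) := h1.trans (add_le_add h2 h3)
      _ = (n6 F + n6 L * n6 Zo) * μ.real (E1 ∪ E2) ^ (5 / 6 : ℝ) := by ring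
      _ ≤ (n6 F + n6 L * n6 Zo) * P := mul_le_mul_of_nonneg_left p1
          (add_nonneg (n6_nonneg _) (mul_nonneg (n6_nonneg _) (n6_nonneg _)))
  -- the second difference
  have a2 : |∫ ω, G ω ∂μ - ∫ ω, Zo ω ∂μ| ≤ (n6 G + n6 Zo) * P := by
    have h1 := int_diff dG dZ' mE2 (fun w hw => by
      have hw2 : Iso (q 0) R R' w := by
        by_contra h
        exact hw h
      exact (fact_both hq hD hF hr hrR hRR hg hs hw2).1)
    have h2 := int_on_six dG mE2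
    have h3 := int_on_six dZ' mE2
    calc _ ≤ n6 G * μ.real E2 ^ (5 / 6 : ℝ) + n6 Zo * μ.real E2 ^ (5 / 6 : ℝ) :=
          h1.trans (add_le_add h2 h3)
      _ = (n6 G + n6 Zo) * μ.real E2 ^ (5 / 6 : ℝ) := by ring
      _ ≤ (n6 G + n6 Zo) * P := mul_le_mul_of_nonneg_left p2
          (add_nonneg (n6_nonneg _) (n6_nonneg _))
  have a3 : |∫ ω, L ω ∂μ| ≤ n6 L := abs_int_le dL
  have a4 : ∫ ω, L ω * Zo ω ∂μ = (∫ ω, L ω ∂μ) * ∫ ω, Zo ω ∂μ := int_mul dis dL dZ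
  have e : VD D (q 0) (f - g) - (∫ ω, L ω ∂μ) * VD D (q 0) (-g) =
      (∫ ω, F ω ∂μ - ∫ ω, L ω * Zo ω ∂μ) -
        (∫ ω, L ω ∂μ) * (∫ ω, G ω ∂μ - ∫ ω, Zo ω ∂μ) := by
    rw [a4]
    show ∫ ω, F ω ∂μ - (∫ ω, L ω ∂μ) * ∫ ω, G ω ∂μ = _
    ring
  rw [e]
  calc _ ≤ |∫ ω, F ω ∂μ - ∫ ω, L ω * Zo ω ∂μ| +
        |∫ ω, L ω ∂μ| * |∫ ω, G ω ∂μ - ∫ ω, Zo ω ∂μ| := by
        rw [← abs_mul]
        exact abs_sub _ _
    _ ≤ (n6 F + n6 L * n6 Zo) * P + n6 L * ((n6 G + n6 Zo) * P) :=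
        add_le_add a1 (mul_le_mul a3 a2 (abs_nonneg _) (n6_nonneg _))
    _ = _ := by ring

end Vale.Agent.P167.LOC
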