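import Vale.Agent.P167.LOC.Defs
import Vale.Agent.P167.BR.Join

/-!
# P167, LOC: the moments of the functionals, for macroscopic charges with a connected zone (statement)

`S_loc2` of `LOC/Defs` with one more condition: the support of the macroscopic charge is contained in
a connected set `Z` of squares at macroscopic distance from the boundary.
-/

namespace Vale.Agent.P167.LOC

open Vale.Agent.P167.E6 (IsPolygon Encloses)
open Vale.Agent.P167.BR (Flt Bmp XD VD sites ECon)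

/-- A macroscopic charge whose support is contained in a connected zone at macroscopic distance from
the boundary. -/
structure MacZ (K : ℝ) (N : ℤ) (D Z : Finset (ℤ × ℤ)) (g : ℤ × ℤ → ℝ) : Prop extends
    Mac K N D g where
  sub : Z ⊆ D
  conn : ECon Z
  site : ∀ z, g z ≠ 0 → z ∈ sites Z
  deep : ∀ v ∈ Z, ∀ w : ℤ × ℤ, (nm (w - v) : ℝ) ≤ N / K → w ∈ D

/-- **(LOC2)** The moments. -/
def S_loc2z : Prop := ∀ K : ℝ, 0 < K → ∃ (C : ℝ) (r₀ : ℤ), 0 < r₀ ∧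
  ∀ (n : ℕ) (q : ZMod n → ℤ × ℤ) (D : Finset (ℤ × ℤ)), IsPolygon q → Encloses q D →
  ∀ (r R N : ℤ) (f g : ℤ × ℤ → ℝ) (Z : Finset (ℤ × ℤ)), r₀ ≤ r → 2 * r ≤ R → K * R ≤ N →
    Flt D (q 0) ⌊N / K⌋ → (∀ v ∈ D, (nm (v - q 0) : ℝ) ≤ K * N) →
    Bmp K (q 0) r f → MacZ K N D Z g →
    m6 (XD D (q 0) (g - f)) * m6 (XD D (q 0) (f - g)) ≤ C ∧
    m6 (XD D (q 0) (g - f)) * m6 (XL (q 0) r R f) * m6 (XD D (q 0) (-g)) ≤ C ∧
    m6 (XD D (q 0) (g - f)) * m6 (XL (q 0) r R f) * m6 (ZO D (q 0) R g) ≤ C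

end Vale.Agent.P167.LOC
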