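import Vale.Agent.P167.CL.Enl
import Vale.Agent.P167.CL.Bump
import Vale.Agent.P167.LOC.Defs2

/-!
# P167, LOC: the discrete domains of a lattice polygon satisfy the hypotheses of `S_loc2`
-/

namespace Vale.Agent.P167.LOC

open MeasureTheory Filter Topology Set Metric
open Vale.Agent.P167.BVP (Test)
open Vale.Agent.P167.CA (cms enl cl mem_cl measurableSet_cl cms_eq)
open Vale.Agent.P167.E6 (pt region IsPolygon Encloses)
open Vale.Agent.P167.BR (Bmp Flt hbox sites)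
open Vale.Agent.P167.CL (Bmp0 bmp mem_cell vol_cell bmp_nonneg bmp_ne bmp_le bmp_mass)

/-! ### Cell masses -/

/-- A cell which carries mass contains a point of the support. -/
theorem cms_ne {f : ℂ → ℝ} {n : ℕ} {z : ℤ × ℤ} (hz : cms f (1 / n) z ≠ 0) :
    ∃ w ∈ cl n z, f w ≠ 0 := by
  by_contra hcon
  push Not at hcon
  apply hz
  rw [cms_eq]
  exact setIntegral_eq_zero_of_forall_eq_zero hcon

theorem cell_finite {n : ℕ} (hn : 0 < n) (z : ℤ × ℤ) : volume (cl n z) < ⊤ := by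
  have hn' : (0 : ℝ) < n := by exact_mod_cast hn
  have hcb : cl n z ⊆ closedBall 0 ((|(z.1 : ℝ)| + 1 + (|(z.2 : ℝ)| + 1)) / n) := by
    intro w hw
    obtain ⟨⟨g1, g2⟩, g3, g4⟩ := mem_cell hn hw
    rw [mem_closedBall_zero_iff, le_div_iff₀ hn']
    have a1 : |w.re| * n ≤ |(z.1 : ℝ)| + 1 := by
      have h5 : |w.re| * n = |n * w.re| := by
        rw [abs_mul, abs_of_pos hn']; ring
      rw [h5, abs_le]
      constructor
      · linarith [neg_abs_le (z.1 : ℝ)]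
      · linarith [le_abs_self (z.1 : ℝ)]
    have a2 : |w.im| * n ≤ |(z.2 : ℝ)| + 1 := by
      have h5 : |w.im| * n = |n * w.im| := by
        rw [abs_mul, abs_of_pos hn']; ring
      rw [h5, abs_le]
      constructor
      · linarith [neg_abs_le (z.2 : ℝ)]
      · linarith [le_abs_self (z.2 : ℝ)]
    have := mul_le_mul_of_nonneg_right (Complex.norm_le_abs_re_add_abs_im w) hn'.le
    linarith
  exact (measure_mono hcb).trans_lt measure_closedBall_lt_top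

theorem cms_le_of {f : ℂ → ℝ} {n : ℕ} (hn : 0 < n) {B : ℝ} (h0 : ∀ z, 0 ≤ f z)
    (hB : ∀ z, f z ≤ B) (hB0 : 0 ≤ B) (z : ℤ × ℤ) : cms f (1 / n) z ≤ B / (n : ℝ) ^ 2 := by
  have hn' : (0 : ℝ) < n := by exact_mod_cast hn
  rw [cms_eq]
  have h1 : ‖∫ w in cl n z, f w‖ ≤ B * volume.real (cl n z) :=
    norm_setIntegral_le_of_norm_le_const (cell_finite hn z) fun w _ => by
      rw [Real.norm_eq_abs, abs_of_nonneg (h0 w)]
      exact hB w
  refine (le_abs_self _).trans (h1.trans ?_)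
  calc B * volume.real (cl n z) ≤ B * (1 / (n : ℝ) ^ 2) := by
        gcongr; exact vol_cell hn z
    _ = B / (n : ℝ) ^ 2 := by ring

theorem cms_nonneg_of {f : ℂ → ℝ} {n : ℕ} (h0 : ∀ z, 0 ≤ f z) (z : ℤ × ℤ) :
    0 ≤ cms f (1 / n) z := by
  rw [cms_eq]
  exact integral_nonneg h0

theorem cms_fin {S : CA.Dat} {f : ℂ → ℝ} (hf : Test S.P f) {n : ℕ} (hn : 0 < n) :
    ∑ᶠ z, cms f (1 / n) z = ∫ z, f z := by
  have h1 := CA.sum_cms (Q := S.Q) (n := n) hn (CA.Test.integrable hf)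
    (fun x hx => CA.Test.mem hf hx) (fun _ => 1)
  simp only [mul_one] at h1
  rw [← h1]
  refine finsum_eq_sum_of_support_subset _ fun z hz => ?_
  rw [Finset.mem_coe]
  rw [Function.mem_support] at hz
  obtain ⟨w, hw, hne⟩ := cms_ne hz
  rw [← mem_cl.1 hw]
  exact CA.cs_mem hn (CA.Test.mem hf hne)

/-- **The cell masses of a bump at the base point.** -/
theorem bmp_base {χ : ℂ → ℝ} {B : ℝ} (h : Bmp0 χ) (hB0 : 0 < B) (hB : ∀ z, χ z ≤ B) {n : ℕ}
    {η : ℝ} (hη : 0 < η) (hn : 6 ≤ η * n) {S : CA.Dat} {c : ℂ} {b : ℤ × ℤ}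
    (h1 : |n * c.re - b.1| ≤ 1) (h2 : n * c.im = b.2) (ht : Test S.P (bmp χ c η)) :
    Bmp (max (4 * B) 8) b ⌈η * n⌉ (cms (bmp χ c η) (1 / n)) := by
  have hn0 : 0 < n := by
    rcases Nat.eq_zero_or_pos n with h0 | h0
    · rw [h0] at hn; norm_num at hn
    · exact h0
  have hn' : (0 : ℝ) < n := by exact_mod_cast hn0
  have hr1 : η * n ≤ (⌈η * n⌉ : ℝ) := Int.le_ceil _
  have hr2 : (⌈η * n⌉ : ℝ) ≤ 2 * (η * n) := by
    have := (Int.ceil_lt_add_one (η * n)).le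
    linarith
  have hr0 : (0 : ℝ) < (⌈η * n⌉ : ℝ) := by linarith
  refine ⟨cms_nonneg_of fun w => bmp_nonneg h w, fun z => ?_, fun z hz => ?_, ?_⟩
  · refine (cms_le_of hn0 (fun w => bmp_nonneg h w) (fun w => bmp_le hB w) (by positivity) z).trans ?_
    calc B / η ^ 2 / (n : ℝ) ^ 2 = B / (η * n) ^ 2 := by field_simp
      _ = 4 * B / (2 * (η * n)) ^ 2 := by field_simp; ring
      _ ≤ 4 * B / (⌈η * n⌉ : ℝ) ^ 2 := by gcongr
      _ ≤ max (4 * B) 8 / (⌈η * n⌉ : ℝ) ^ 2 := by gcongr; exact le_max_left _ _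
  · obtain ⟨w, hw, hne⟩ := cms_ne hz
    obtain ⟨g1, g2, g3⟩ := bmp_ne h hη (subset_tsupport _ hne)
    obtain ⟨⟨k1, k2⟩, k3, k4⟩ := mem_cell hn0 hw
    rw [abs_le] at g1 h1
    have m1 : n * w.re - n * c.re ≤ η * n / 2 := by nlinarith [g1.2]
    have m2 : -(η * n / 2) ≤ n * w.re - n * c.re := by nlinarith [g1.1]
    have m3 : η * n / 4 ≤ n * w.im - n * c.im := by nlinarith
    have m4 : n * w.im - n * c.im ≤ η * n / 2 := by nlinarith
    rw [h2] at m3 m4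
    have c1 : b.1 - ⌈η * n⌉ ≤ z.1 := by
      have : (b.1 : ℝ) - ⌈η * n⌉ < z.1 + 1 := by linarith [h1.1, h1.2]
      have h9 : ((b.1 - ⌈η * n⌉ : ℤ) : ℝ) < ((z.1 + 1 : ℤ) : ℝ) := by
        push_cast; exact_mod_cast this
      have := Int.cast_lt.1 h9
      omega
    have c2 : z.1 ≤ b.1 + ⌈η * n⌉ := by
      have : (z.1 : ℝ) ≤ (b.1 : ℝ) + ⌈η * n⌉ := by linarith [h1.1, h1.2]
      exact_mod_cast this
    have c4 : z.2 ≤ b.2 + ⌈η * n⌉ := by
      have : (z.2 : ℝ) ≤ (b.2 : ℝ) + ⌈η * n⌉ := by linarith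
      exact_mod_cast this
    refine ⟨c1, c2, ?_, c4⟩
    have hK : (8 : ℝ) ≤ max (4 * B) 8 := le_max_right _ _
    have h10 : (⌈η * n⌉ : ℝ) / max (4 * B) 8 ≤ η * n / 4 := by
      rw [div_le_iff₀ (by linarith)]
      nlinarith
    linarith
  · rw [cms_fin ht hn0, bmp_mass h hη]

theorem Bmp.mono {K K' : ℝ} {b : ℤ × ℤ} {r : ℤ} {f : ℤ × ℤ → ℝ} (hK : 0 < K) (hKK : K ≤ K')
    (hr : 0 ≤ r) (h : Bmp K b r f) : Bmp K' b r f where
  nonneg := h.nonneg
  le z := (h.le z).trans (by gcongr)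
  supp z hz := by
    obtain ⟨h1, h2, h3, h4⟩ := h.supp z hz
    refine ⟨h1, h2, ?_, h4⟩
    have hr' : (0 : ℝ) ≤ r := by exact_mod_cast hr
    have : (r : ℝ) / K' ≤ r / K := by gcongr
    linarith
  sum := h.sum

/-! ### Macroscopic charges -/

/-- A square of mesh `1 / n` near an interior point of the region is in the enlargement. -/
theorem mem_enl_near {Q : Finset (ℤ × ℤ)} {n : ℕ} (hn : 0 < n) {x : ℂ} {d : ℝ}
    (hd : ball x d ⊆ region 1 Q) {v : ℤ × ℤ}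
    (hv : ‖(⟨(v.1 + 1 / 2) / n, (v.2 + 1 / 2) / n⟩ : ℂ) - x‖ < d) : v ∈ enl Q n := by
  have hn' : (0 : ℝ) < n := by exact_mod_cast hn
  have h1 := hd (mem_ball.2 (by rw [dist_eq_norm]; exact hv))
  rw [CA.mem_region] at h1
  obtain ⟨f, hf, h2, h3, h4, h5⟩ := h1
  simp only at h2 h3 h4 h5
  rw [le_div_iff₀ hn'] at h2 h4
  rw [div_le_iff₀ hn'] at h3 h5
  refine CA.mem_enl hn hf ?_ ?_ ?_ ?_
  · have : ((n : ℤ) * f.1 : ℝ) < ((v.1 + 1 : ℤ) : ℝ) := by push_cast; linarith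
    have h6 : (n : ℤ) * f.1 < v.1 + 1 := by exact_mod_cast this
    omega
  · have : ((v.1 : ℤ) : ℝ) < (((n : ℤ) * (f.1 + 1) : ℤ) : ℝ) := by push_cast; linarith
    exact_mod_cast this
  · have : ((n : ℤ) * f.2 : ℝ) < ((v.2 + 1 : ℤ) : ℝ) := by push_cast; linarith
    have h6 : (n : ℤ) * f.2 < v.2 + 1 := by exact_mod_cast this
    omega
  · have : ((v.2 : ℤ) : ℝ) < (((n : ℤ) * (f.2 + 1) : ℤ) : ℝ) := by push_cast; linarith
    exact_mod_cast this

theorem nm_le_iff {v : ℤ × ℤ} {t : ℝ} : (nm v : ℝ) ≤ t ↔ |(v.1 : ℝ)| ≤ t ∧ |(v.2 : ℝ)| ≤ t := by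
  unfold nm
  push_cast
  rw [max_le_iff]

/-- The support of a test function has a margin. -/
theorem exists_margin {S : CA.Dat} {f : ℂ → ℝ} (hf : Test S.P f) :
    ∃ d > 0, ∀ x, f x ≠ 0 → ball x d ⊆ region 1 S.Q := by
  have hP : IsOpen S.P := isOpen_interior
  obtain ⟨d, hd, h⟩ := hf.2.1.isCompact.exists_thickening_subset_open hP hf.2.2
  refine ⟨d, hd, fun x hx z hz => interior_subset (h ?_)⟩
  rw [mem_thickening_iff]
  exact ⟨x, subset_tsupport _ hx, hz⟩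

/-- **The cell masses of a smooth charge.** -/
theorem mac_dat (S : CA.Dat) {f : ℂ → ℝ} (hf : Test S.P f) (h0 : ∀ z, 0 ≤ f z)
    (hm : ∫ z, f z = Real.pi / 3) : ∃ K₀ > 0, ∀ K ≥ K₀, ∀ᶠ n : ℕ in atTop,
      Mac K n (S.D n) (cms f (1 / n)) := by
  obtain ⟨d, hd, hdm⟩ := exists_margin hf
  obtain ⟨B, hB⟩ := hf.1.continuous.bounded_above_of_compact_support hf.2.1
  refine ⟨max (max B 1) (4 / d), by positivity, fun K hK => ?_⟩
  have hKB : B ≤ K := (le_max_left _ _).trans ((le_max_left _ _).trans hK)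
  have hK1 : 1 ≤ K := (le_max_right _ _).trans ((le_max_left _ _).trans hK)
  have hKd : 4 / d ≤ K := (le_max_right _ _).trans hK
  have hev : ∀ᶠ n : ℕ in atTop, 8 / d < (n : ℝ) :=
    tendsto_natCast_atTop_atTop.eventually_gt_atTop _
  filter_upwards [hev, eventually_gt_atTop 0] with n hn hn0
  have hn' : (0 : ℝ) < n := by exact_mod_cast hn0
  refine ⟨cms_nonneg_of h0, fun z => ?_, fun z hz v hv => ?_, ?_⟩
  · have hB' : ∀ w, f w ≤ K := fun w => by
      have := hB w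
      rw [Real.norm_eq_abs] at this
      exact (le_abs_self _).trans (this.trans hKB)
    exact_mod_cast cms_le_of hn0 h0 hB' (by linarith) z
  · obtain ⟨w, hw, hne⟩ := cms_ne hz
    obtain ⟨⟨k1, k2⟩, k3, k4⟩ := mem_cell hn0 hw
    refine mem_enl_near hn0 (hdm w hne) ?_
    rw [nm_le_iff] at hv
    simp only [Prod.fst_sub, Prod.snd_sub] at hv
    push_cast at hv
    obtain ⟨v1, v2⟩ := hv
    have hnK : (n : ℝ) / K ≤ n * (d / 4) := by
      rw [div_le_iff₀ (by linarith)]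
      have : d / 4 * K ≥ 1 := by
        rw [div_le_iff₀ hd] at hKd
        nlinarith
      nlinarith
    have hd8 : 2 < n * (d / 4) := by
      rw [div_lt_iff₀ hd] at hn
      nlinarith
    have e1 : ((⟨(v.1 + 1 / 2) / n, (v.2 + 1 / 2) / n⟩ : ℂ) - w).re = (v.1 + 1 / 2 - n * w.re) / n := by
      rw [Complex.sub_re]
      field_simp
    have e2 : ((⟨(v.1 + 1 / 2) / n, (v.2 + 1 / 2) / n⟩ : ℂ) - w).im = (v.2 + 1 / 2 - n * w.im) / n := by
      rw [Complex.sub_im]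
      field_simp
    refine (Complex.norm_le_abs_re_add_abs_im _).trans_lt ?_
    rw [e1, e2, abs_div, abs_div, abs_of_pos hn', ← add_div, div_lt_iff₀ hn']
    rw [abs_le] at v1 v2
    have a1 : |(v.1 : ℝ) + 1 / 2 - n * w.re| ≤ n * (d / 4) + 3 / 2 := by
      rw [abs_le]
      constructor <;> linarith [v1.1, v1.2]
    have a2 : |(v.2 : ℝ) + 1 / 2 - n * w.im| ≤ n * (d / 4) + 3 / 2 := by
      rw [abs_le]
      constructor <;> linarith [v2.1, v2.2]
    linarith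
  · rw [cms_fin hf hn0, hm]

end Vale.Agent.P167.LOC
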