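import Vale.Agent.P167.H436.Ero
import Vale.Agent.P167.LOC.Geo
import Vale.Agent.P167.LOC.Defs3

/-!
# P167, LOC: the zone of a smooth charge in a lattice polygon
-/

namespace Vale.Agent.P167.LOC

open MeasureTheory Filter Topology Set Metric
open Vale.Agent.P167.BVP (Test)
open Vale.Agent.P167.CA (cms enl)
open Vale.Agent.P167.BR (sites ECon)
open Vale.Agent.P167.H436 (ero mem_ero ero_sub econ_ero)

/-- **The cell masses of a smooth charge**, with the zone. -/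
theorem macz_dat (S : CA.Dat) {f : ℂ → ℝ} (hf : Test S.P f) (h0 : ∀ z, 0 ≤ f z)
    (hm : ∫ z, f z = Real.pi / 3) : ∃ K₀ > 0, ∀ K ≥ K₀, ∀ᶠ n : ℕ in atTop,
      ∃ Z, MacZ K n (S.D n) Z (cms f (1 / n)) := by
  obtain ⟨K₀, hK₀, h⟩ := mac_dat S hf h0 hm
  refine ⟨max K₀ 4, by positivity, fun K hK => ?_⟩
  have hK1 : K₀ ≤ K := (le_max_left _ _).trans hK
  have hK4 : 4 ≤ K := (le_max_right _ _).trans hK
  filter_upwards [h K hK1, eventually_gt_atTop 0] with n hn hn0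
  have hn' : (0 : ℝ) < n := by exact_mod_cast hn0
  set k : ℤ := ⌊(n : ℝ) / K⌋ with hk
  have hk0 : 0 ≤ k := Int.floor_nonneg.2 (by positivity)
  have hk1 : (k : ℝ) ≤ n / K := Int.floor_le _
  have hk2 : 2 * k < n := by
    have h1 : (n : ℝ) / K ≤ n / 4 := by gcongr
    have : (2 * k : ℝ) < n := by linarith
    exact_mod_cast this
  have hfl : ∀ v : ℤ × ℤ, (nm v : ℝ) ≤ n / K ↔ nm v ≤ k := fun v => by
    rw [hk, Int.le_floor]
  have hcc : ∀ a ∈ S.Q, ∀ b ∈ S.Q, Relation.ReflTransGen (H436.Adj S.Q) a b :=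
    fun a ha b hb => H436.cells_conn S.poly S.enc ha hb
  refine ⟨ero S.Q n k, hn, ero_sub, econ_ero hcc hk0 hk2, fun z hz => ?_, fun v hv w hw => ?_⟩
  · refine BR.mem_sites.2 ⟨z, ?_, ?_⟩
    · rw [mem_ero hk0]
      intro i j h1 h2 h3 h4
      refine hn.supp z hz (i, j) ?_
      have : (((n : ℕ) : ℤ) : ℝ) = (n : ℝ) := Int.cast_natCast n
      rw [this, hfl]
      simp only [H45.nm_le, Prod.fst_sub, Prod.snd_sub, abs_le]
      omega
    · omega
  · rw [mem_ero hk0] at hv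
    have : (((n : ℕ) : ℤ) : ℝ) = (n : ℝ) := Int.cast_natCast n
    rw [this, hfl] at hw
    simp only [H45.nm_le, Prod.fst_sub, Prod.snd_sub, abs_le] at hw
    exact hv w.1 w.2 (by omega) (by omega) (by omega) (by omega)

end Vale.Agent.P167.LOC
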