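import Vale.Agent.P167.LOC.Geo2
import Vale.Agent.P167.LOC.Zone
import Vale.Agent.P167.LOC.Est
import Vale.Agent.P167.H411.B7.Calc

/-!
# P167, LOC: `I_loc1` from the moments `S_loc2z`
-/

namespace Vale.Agent.P167.LOC

open MeasureTheory Filter Topology Set Metric
open Vale.Agent.P167.BVP (Test)
open Vale.Agent.P167.CA (cms enl cl mem_cl measurableSet_cl cms_eq)
open Vale.Agent.P167.E6 (pt region IsPolygon Encloses)
open Vale.Agent.P167.BR (Bmp Flt hbox sites XD VD Iso)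
open Vale.Agent.P167.CL (Bmp0 bmp)

theorem cms_sub' {f g : ℂ → ℝ} (hf : Integrable f) (hg : Integrable g) (δ : ℝ) :
    cms (fun z => f z - g z) δ = cms f δ - cms g δ := by
  funext s
  rw [CA.cms_sub hf hg]
  rfl

theorem cms_neg' (f : ℂ → ℝ) (δ : ℝ) : cms (fun z => - f z) δ = - cms f δ := by
  funext s
  have := CA.cms_smul (-1) f δ s
  simpa using this

/-- Products of sixth roots of moments. -/
theorem n6_mul_le {X Y : Cfg → ℝ} {C : ℝ} (h : m6 X * m6 Y ≤ C) : n6 X * n6 Y ≤ C ^ (1 / 6 : ℝ) := by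
  unfold n6
  rw [← Real.mul_rpow (m6_nonneg _) (m6_nonneg _)]
  exact Real.rpow_le_rpow (mul_nonneg (m6_nonneg _) (m6_nonneg _)) h (by norm_num)

theorem n6_mul3_le {X Y Z : Cfg → ℝ} {C : ℝ} (h : m6 X * m6 Y * m6 Z ≤ C) :
    n6 X * n6 Y * n6 Z ≤ C ^ (1 / 6 : ℝ) := by
  unfold n6
  rw [← Real.mul_rpow (m6_nonneg _) (m6_nonneg _), ← Real.mul_rpow
    (mul_nonneg (m6_nonneg _) (m6_nonneg _)) (m6_nonneg _)]
  exact Real.rpow_le_rpow (mul_nonneg (mul_nonneg (m6_nonneg _) (m6_nonneg _)) (m6_nonneg _)) h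
    (by norm_num)

/-- A macroscopic charge is off the half box. -/
theorem Mac.off {K : ℝ} {N : ℤ} {D : Finset (ℤ × ℤ)} {g : ℤ × ℤ → ℝ} {b : ℤ × ℤ} {R' : ℤ}
    (hK : 0 < K) (hN : 0 ≤ N) (h : Mac K N D g) (hF : Flt D b ⌊(N : ℝ) / K⌋) (hR : 1 ≤ R')
    (hR' : R' + 1 ≤ ⌊(N : ℝ) / K⌋) (z : ℤ × ℤ) (hz : g z ≠ 0) :
    z ∈ sites D ∧ z ∉ sites (hbox b R') := by
  have hN' : (0 : ℝ) ≤ (N : ℝ) / K := div_nonneg (by exact_mod_cast hN) hK.le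
  constructor
  · have h1 : z ∈ D := h.supp z hz z (by rw [sub_self]; simpa [nm] using hN')
    exact CA.mem_sites h1 (Or.inl rfl)
  · intro hzs
    rw [BR.mem_sites_hbox hR] at hzs
    have h1 : ((z.1, b.2 - 1) : ℤ × ℤ) ∈ D := by
      refine h.supp z hz _ ?_
      have h2 : nm (((z.1, b.2 - 1) : ℤ × ℤ) - z) ≤ ⌊(N : ℝ) / K⌋ := by
        unfold nm
        simp only [Prod.fst_sub, Prod.snd_sub, sub_self, abs_zero]
        rw [max_le_iff, abs_le]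
        omega
      calc ((nm (((z.1, b.2 - 1) : ℤ × ℤ) - z) : ℤ) : ℝ) ≤ (⌊(N : ℝ) / K⌋ : ℝ) := by exact_mod_cast h2
        _ ≤ (N : ℝ) / K := Int.floor_le _
    have h3 := (hF (z.1, b.2 - 1) (by simp only; omega) (by simp only; omega) (by simp only; omega)
      (by simp only; omega)).1 h1
    simp only at h3
    omega

/-- The scales. -/
theorem scales {K ρ : ℝ} {n : ℕ} (hK : 1 ≤ K) (hρ : 0 < ρ) (hρ1 : ρ ≤ 1 / (16 * K ^ 2))
    (h1 : 8 ≤ ρ * n) :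
    ρ * n ≤ (⌈ρ * n⌉ : ℝ) ∧ (⌈ρ * n⌉ : ℝ) ≤ 2 * (ρ * n) ∧ √ρ * n ≤ (⌈√ρ * n⌉ : ℝ) ∧
      (⌈√ρ * n⌉ : ℝ) ≤ 2 * (√ρ * n) ∧ 2 * ⌈ρ * n⌉ ≤ ⌈√ρ * n⌉ ∧ K * (⌈√ρ * n⌉ : ℝ) ≤ n ∧
      ⌈√ρ * n⌉ ≤ ⌊(n : ℝ) / K⌋ - 1 ∧ (n : ℝ) / (2 * K) ≤ ((⌊(n : ℝ) / K⌋ - 1 : ℤ) : ℝ) := by
  have hK0 : 0 < K := by linarith
  have hs : √ρ * √ρ = ρ := Real.mul_self_sqrt hρ.le
  have hs0 : 0 < √ρ := Real.sqrt_pos.2 hρ
  have hs1 : √ρ ≤ 1 / (4 * K) := by
    rw [Real.sqrt_le_left (by positivity)]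
    calc ρ ≤ 1 / (16 * K ^ 2) := hρ1
      _ = (1 / (4 * K)) ^ 2 := by field_simp; norm_num
  have hs2 : √ρ ≤ 1 / 4 := hs1.trans (by
    rw [div_le_div_iff₀ (by positivity) (by norm_num)]; linarith)
  have hn : 0 ≤ (n : ℝ) := Nat.cast_nonneg n
  have hge : ρ * n ≤ √ρ * n * (1 / 4) := by
    have h5 : ρ * n = √ρ * n * √ρ := by
      calc ρ * n = √ρ * √ρ * n := by rw [hs]
        _ = √ρ * n * √ρ := by ring
    rw [h5]
    exact mul_le_mul_of_nonneg_left hs2 (mul_nonneg hs0.le hn)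
  have a1 := Int.le_ceil (ρ * n)
  have a2 := (Int.ceil_lt_add_one (ρ * n)).le
  have a3 := Int.le_ceil (√ρ * n)
  have a4 := (Int.ceil_lt_add_one (√ρ * n)).le
  have hsK : √ρ * n ≤ n / (4 * K) := by
    have := mul_le_mul_of_nonneg_right hs1 hn
    calc √ρ * n ≤ 1 / (4 * K) * n := this
      _ = n / (4 * K) := by ring
  have hnK : (8 : ℝ) * 4 ≤ √ρ * n := by linarith
  have hq : (n : ℝ) / (4 * K) = (n : ℝ) / K / 4 := by field_simp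
  have b1 : (⌈√ρ * n⌉ : ℝ) ≤ 2 * (√ρ * n) := by linarith
  have b2 : 2 * (√ρ * n) ≤ n / (2 * K) := by
    have : (n : ℝ) / (2 * K) = 2 * (n / (4 * K)) := by field_simp; ring
    rw [this]; linarith
  have b3 := Int.lt_floor_add_one ((n : ℝ) / K)
  have b4 : (n : ℝ) / (2 * K) ≤ ((⌊(n : ℝ) / K⌋ - 1 : ℤ) : ℝ) := by
    push_cast
    have : (n : ℝ) / (2 * K) = (n : ℝ) / K / 2 := by field_simp
    rw [this]
    have h5 : 4 ≤ (n : ℝ) / K := by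
      rw [hq] at hsK
      linarith
    linarith
  refine ⟨a1, by linarith, a3, b1, ?_, ?_, ?_, b4⟩
  · have : ((2 * ⌈ρ * n⌉ : ℤ) : ℝ) ≤ ((⌈√ρ * n⌉ : ℤ) : ℝ) := by push_cast; linarith
    exact_mod_cast this
  · calc K * (⌈√ρ * n⌉ : ℝ) ≤ K * (n / (2 * K)) := mul_le_mul_of_nonneg_left (b1.trans b2) hK0.le
      _ = n / 2 := by field_simp
      _ ≤ n := by linarith
  · have : ((⌈√ρ * n⌉ : ℤ) : ℝ) ≤ ((⌊(n : ℝ) / K⌋ - 1 : ℤ) : ℝ) := (b1.trans b2).trans b4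
    exact_mod_cast this

/-- **`I_loc1` from the moments.** -/
theorem i_loc1 (hL : S_loc2z) : I_loc1 := by
  intro S hr χ hχ
  obtain ⟨B, hB0, hB⟩ := hχ.bdd
  refine ⟨fun ρ n => ∫ ω, XL (S.b n) ⌈ρ * n⌉ ⌈√ρ * n⌉ (cms (bmp χ S.bp ρ) (1 / n)) ω ∂μ,
    fun f hf hf0 hfm => ?_⟩
  obtain ⟨K₁, hK₁, h₁⟩ := macz_dat S hf hf0 hfm
  obtain ⟨K₂, hK₂, h₂⟩ := flt_dat S hr
  obtain ⟨K₃, hK₃, h₃⟩ := size_dat S hr
  set K : ℝ := max (max K₁ K₂) (max K₃ (max (4 * B) 8)) with hK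
  have k1 : K₁ ≤ K := (le_max_left _ _).trans (le_max_left _ _)
  have k2 : K₂ ≤ K := (le_max_right _ _).trans (le_max_left _ _)
  have k3 : K₃ ≤ K := (le_max_left _ _).trans (le_max_right _ _)
  have k4 : max (4 * B) 8 ≤ K := (le_max_right _ _).trans (le_max_right _ _)
  have k5 : 8 ≤ K := (le_max_right _ _).trans k4
  have hK0 : 0 < K := by linarith
  obtain ⟨C, r₀, hr₀, hC⟩ := hL K hK0
  obtain ⟨C₁, hC₁, hiso⟩ := BR.iso_le
  refine ⟨4 * (max C 0) ^ (1 / 6 : ℝ) * (C₁ * (2 + 4 * K)) ^ (5 / 6 : ℝ), ?_⟩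
  set t : ℝ := min S.tp (1 - S.tp) with ht
  have ht0 : 0 < t := lt_min S.tp0 (by linarith [S.tp1])
  have hev : ∀ᶠ ρ : ℝ in 𝓝[>] 0, ρ < min (1 / (16 * K ^ 2)) t :=
    (gt_mem_nhds (by positivity)).filter_mono nhdsWithin_le_nhds
  filter_upwards [hev, self_mem_nhdsWithin] with ρ hρ1 hρ
  have hρ0 : (0 : ℝ) < ρ := hρ
  rw [lt_min_iff] at hρ1
  have hevn : ∀ᶠ n : ℕ in atTop, max 8 (r₀ : ℝ) / ρ < (n : ℝ) :=
    tendsto_natCast_atTop_atTop.eventually_gt_atTop _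
  filter_upwards [hevn, h₁ K k1, h₂ K k2, h₃ K k3, eventually_gt_atTop 0] with n hn m1z m2 m3 hn0
  obtain ⟨Z, m1z⟩ := m1z
  have m1 := m1z.toMac
  have hn' : (0 : ℝ) < n := by exact_mod_cast hn0
  rw [div_lt_iff₀ hρ0] at hn
  have hn8 : 8 ≤ ρ * n := by
    have := (le_max_left 8 (r₀ : ℝ)).trans hn.le
    linarith
  have hnr : (r₀ : ℝ) ≤ ρ * n := by
    have := (le_max_right 8 (r₀ : ℝ)).trans hn.le
    linarith
  obtain ⟨s1, s2, s3, s4, s5, s6, s7, s8⟩ := scales (K := K) (by linarith) hρ0 hρ1.1.le hn8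
  -- the bump
  obtain ⟨ht1, -, -⟩ := H411.B7.bmp_test hr hχ hρ0 hρ1.2
  obtain ⟨c1, c2⟩ := b_close S hr n
  have hbmp0 := bmp_base hχ hB0 hB hρ0 (by linarith) c1 c2 ht1
  set φ : ℤ × ℤ → ℝ := cms (bmp χ S.bp ρ) (1 / n) with hφ
  set g : ℤ × ℤ → ℝ := cms f (1 / n) with hg
  set r : ℤ := ⌈ρ * n⌉ with hrd
  set R : ℤ := ⌈√ρ * n⌉ with hRd
  have hr1 : 1 ≤ r := by
    have : (0 : ℝ) < r := by linarith
    have : (0 : ℤ) < r := by exact_mod_cast this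
    omega
  have hbmp : Bmp K (S.b n) r φ := Bmp.mono (by positivity) k4 (by omega) hbmp0
  obtain ⟨m, q, hq, hD, hq0⟩ := exists_poly S hn0
  -- the moments
  have hrr : r₀ ≤ r := by
    have : (r₀ : ℝ) ≤ (r : ℝ) := by linarith
    exact_mod_cast this
  rw [← hq0] at hbmp m2 m3
  obtain ⟨e1, e2, e3⟩ := hC m q (S.D n) hq hD r R n φ g Z hrr s5 (by exact_mod_cast s6) m2 m3 hbmp m1z
  have e1' := n6_mul_le (e1.trans (le_max_left C 0))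
  have e2' := n6_mul3_le (e2.trans (le_max_left C 0))
  have e3' := n6_mul3_le (e3.trans (le_max_left C 0))
  set M : ℝ := (max C 0) ^ (1 / 6 : ℝ) with hM
  -- the scales
  set R' : ℤ := ⌊(n : ℝ) / K⌋ - 1 with hR'
  have hrR : r ≤ R := by omega
  have hR1 : 1 ≤ R' := by omega
  have hoff : ∀ z, g z ≠ 0 → z ∈ sites (S.D n) ∧ z ∉ sites (hbox (q 0) R') := fun z hz =>
    Mac.off hK0 (Int.natCast_nonneg n) m1 m2 hR1 (by push_cast; omega) z hz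
  have hF' : Flt (S.D n) (q 0) R' := m2.mono (by push_cast; omega)
  have hl := loc1 hq hD hF' hr1 hrR s7 (Bmp.sites hK0 hr1 hbmp) hoff m1.sum
  -- the probability
  have i1 := hiso (q 0) r R hr1 hrR
  have i2 := hiso (q 0) R R' (by omega) s7
  have hrp : (0 : ℝ) < r := by exact_mod_cast (by omega : 0 < r)
  have hRp : (0 : ℝ) < R := by exact_mod_cast (by omega : 0 < R)
  have hRp' : (0 : ℝ) < R' := by exact_mod_cast (by omega : 0 < R')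
  have hsq : √ρ * √ρ = ρ := Real.mul_self_sqrt hρ0.le
  have hsp : 0 < √ρ := Real.sqrt_pos.2 hρ0
  have j1 : (r : ℝ) / R ≤ 2 * √ρ := by
    rw [div_le_iff₀ hRp]
    calc (r : ℝ) ≤ 2 * (ρ * n) := s2
      _ = 2 * √ρ * (√ρ * n) := by
          have : 2 * √ρ * (√ρ * n) = 2 * (√ρ * √ρ * n) := by ring
          rw [this, hsq]
      _ ≤ 2 * √ρ * R := mul_le_mul_of_nonneg_left s3 (by positivity)
  have j2 : (R : ℝ) / R' ≤ 4 * K * √ρ := by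
    rw [div_le_iff₀ hRp']
    calc (R : ℝ) ≤ 2 * (√ρ * n) := s4
      _ = 4 * K * √ρ * (n / (2 * K)) := by field_simp; ring
      _ ≤ 4 * K * √ρ * R' := mul_le_mul_of_nonneg_left s8 (by positivity)
  have hP : (μ.real {ω | ¬ Iso (q 0) r R ω} + μ.real {ω | ¬ Iso (q 0) R R' ω}) ^ (5 / 6 : ℝ) ≤
      (C₁ * (2 + 4 * K)) ^ (5 / 6 : ℝ) * ρ ^ (5 / 12 : ℝ) := by
    have h5 : μ.real {ω | ¬ Iso (q 0) r R ω} + μ.real {ω | ¬ Iso (q 0) R R' ω} ≤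
        C₁ * (2 + 4 * K) * √ρ := by
      calc _ ≤ C₁ * ((r : ℝ) / R) + C₁ * ((R : ℝ) / R') := add_le_add i1 i2
        _ ≤ C₁ * (2 * √ρ) + C₁ * (4 * K * √ρ) := by gcongr
        _ = _ := by ring
    refine (Real.rpow_le_rpow (add_nonneg measureReal_nonneg measureReal_nonneg) h5
      (by norm_num)).trans (le_of_eq ?_)
    rw [Real.mul_rpow (by positivity) hsp.le, Real.sqrt_eq_rpow, ← Real.rpow_mul hρ0.le]
    norm_num
  set P : ℝ := (μ.real {ω | ¬ Iso (q 0) r R ω} + μ.real {ω | ¬ Iso (q 0) R R' ω}) ^ (5 / 6 : ℝ)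
    with hPd
  have hP0 : 0 ≤ P := Real.rpow_nonneg (add_nonneg measureReal_nonneg measureReal_nonneg) _
  -- the functionals
  have hfi := CA.Test.integrable hf
  have hφi := CA.Test.integrable ht1
  have v1 : S.V n (fun z => bmp χ S.bp ρ z - f z) = VD (S.D n) (q 0) (φ - g) := by
    unfold CA.Dat.V
    rw [cms_sub' hφi hfi, hq0]
  have v2 : S.V n (fun z => f z - bmp χ S.bp ρ z) = VD (S.D n) (q 0) (g - φ) := by
    unfold CA.Dat.V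
    rw [cms_sub' hfi hφi, hq0]
  have v3 : S.V n (fun z => - f z) = VD (S.D n) (q 0) (-g) := by
    unfold CA.Dat.V
    rw [cms_neg', hq0]
  have v4 : |VD (S.D n) (q 0) (g - φ)| ≤ n6 (XD (S.D n) (q 0) (g - φ)) := abs_int_le BR.dep_XD
  rw [v1, v2, v3, ← hq0]
  set F' := XD (S.D n) (q 0) (g - φ)
  set F := XD (S.D n) (q 0) (φ - g)
  set G := XD (S.D n) (q 0) (-g)
  set L := XL (q 0) r R φ
  set Zo := ZO (S.D n) (q 0) R g
  calc |VD (S.D n) (q 0) (φ - g) - (∫ ω, L ω ∂μ) * VD (S.D n) (q 0) (-g)| *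
        |VD (S.D n) (q 0) (g - φ)|
      ≤ ((n6 F + 2 * (n6 L * n6 Zo) + n6 L * n6 G) * P) * n6 F' :=
        mul_le_mul hl v4 (abs_nonneg _) (mul_nonneg (add_nonneg (add_nonneg (n6_nonneg _)
          (mul_nonneg zero_le_two (mul_nonneg (n6_nonneg _) (n6_nonneg _))))
          (mul_nonneg (n6_nonneg _) (n6_nonneg _))) hP0)
    _ = (n6 F' * n6 F + 2 * (n6 F' * n6 L * n6 Zo) + n6 F' * n6 L * n6 G) * P := by ring
    _ ≤ (M + 2 * M + M) * P := by gcongr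
    _ = 4 * M * P := by ring
    _ ≤ 4 * M * ((C₁ * (2 + 4 * K)) ^ (5 / 6 : ℝ) * ρ ^ (5 / 12 : ℝ)) := by
        have : 0 ≤ M := Real.rpow_nonneg (le_max_right _ _) _
        gcongr
    _ = _ := by ring

end Vale.Agent.P167.LOC
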