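import Vale.Agent.P167.LOC.Far

/-!
# P167, LOC: factorisation of the functional at the base site

The polygon is `q`, the base site is `q l`, the site `q 0` is off the half boxes of `q l`.
-/

namespace Vale.Agent.P167.LOC

open Finset Vale.Agent.P145.FB Vale.Agent.P167.H632
open Vale.Agent.P167.E6 (IsPolygon Encloses dir face)
open Vale.Agent.P167.E2 Relation
open Vale.Agent.P167.BR

variable {ω : Cfg} {D Z : Finset (ℤ × ℤ)} {A : Finset Ed} {b : ℤ × ℤ} {r R : ℤ}
  {n : ℕ} {q : ZMod n → ℤ × ℤ} {l : ℕ} {f g : ℤ × ℤ → ℝ}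

/-- Separation in a subdomain. -/
theorem sep_sub (hZD : Z ⊆ D) (hZ : ECon Z) (hex : ∃ u, PotD D A u) {s t : ℤ × ℤ}
    (hs : s ∈ sites Z) (ht : t ∈ sites Z) : Sep D A s t ↔ Sep Z A s t := by
  constructor
  · rintro ⟨u, hu, h⟩
    exact ⟨u, fun e he => hu e (eds_mono hZD he), h⟩
  · rintro ⟨u', hu', h⟩
    obtain ⟨u, hu⟩ := hex
    refine ⟨u, hu, ?_⟩
    have key : ∀ s t, ReflTransGen (Ec Z) s t → u s - u' s = u t - u' t := by
      intro s t hst
      induction hst with
      | refl => rfl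
      | tail _ h ih =>
        rw [ih]
        obtain ⟨e, he, h1⟩ := h
        have h2 := hu e (eds_mono hZD he)
        have h3 := hu' e he
        rcases h1 with ⟨h1, h4⟩ | ⟨h1, h4⟩ <;> rw [h1, h4] at h2 h3 <;> omega
    have h1 := key _ _ (hZ s hs t ht)
    intro h2
    apply h
    omega

/-- The mass is computed in the subdomain which carries the charge. -/
theorem mass_sub_dom {p : ℤ × ℤ} (hZD : Z ⊆ D) (hZ : ECon Z) (hex : ∃ u, PotD D A u)
    (hp : p ∈ sites Z) (hf : ∀ z, f z ≠ 0 → z ∈ sites Z) : mass D p f A = mass Z p f A := by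
  classical
  rw [mass, mass]
  symm
  refine (sum_subset (sites_mono hZD) fun z _ hz => ?_).trans (sum_congr rfl fun z _ => ?_)
  · have : f z = 0 := by
      by_contra h'
      exact hz (hf z h')
    rw [this, ite_self]
  · by_cases hz : z ∈ sites Z
    · have := sep_sub hZD hZ hex hz hp
      by_cases h : Sep D A z p
      · rw [if_pos h, if_pos (this.1 h)]
      · rw [if_neg h, if_neg (fun h' => h (this.2 h'))]
    · have : f z = 0 := by
        by_contra h'
        exact hz (hf z h')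
      rw [this, ite_self, ite_self]

/-- The mass of a charge all of whose sites are separated or not simultaneously. -/
theorem mass_all {p : ℤ × ℤ} (hfD : ∀ z, f z ≠ 0 → z ∈ sites D) {P : Prop} [Decidable P]
    (h : ∀ z, f z ≠ 0 → (Sep D A z p ↔ P)) : mass D p f A = if P then ∑ᶠ z, f z else 0 := by
  classical
  have hsum : ∑ z ∈ sites D, f z = ∑ᶠ z, f z := by
    symm
    exact finsum_eq_sum_of_support_subset f fun z hz => mem_coe.2 (hfD z hz)
  rw [mass]
  by_cases hP : P
  · rw [if_pos hP, ← hsum]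
    refine sum_congr rfl fun z _ => ?_
    by_cases hz : f z = 0
    · rw [hz, ite_self]
    · rw [if_pos ((h z hz).2 hP)]
  · rw [if_neg hP]
    refine sum_eq_zero fun z _ => ?_
    by_cases hz : f z = 0
    · rw [hz, ite_self]
    · rw [if_neg (fun h' => hP ((h z hz).1 h'))]

/-- A charge near the base site is not separated from it by the pieces which do not come near. -/
theorem mass_near {p : ℤ × ℤ} (hZD : Z ⊆ D) (hZ : ECon Z) (hV : ¬ Vz Z A) (hp : p ∈ sites Z)
    (hf : ∀ z, f z ≠ 0 → z ∈ sites Z) : mass D p f A = 0 := by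
  classical
  rw [mass_zone hZD hf (P := False), if_neg not_false]
  intro z hz
  refine iff_of_false ?_ not_false
  rintro ⟨u, hu, h⟩
  exact h (pot_zone hu hZD hV (hZ z hz p hp))

theorem self_mem_sites (hR : 1 ≤ R) : b ∈ sites (hbox b R) := by
  rw [mem_sites_hbox hR]
  omega

theorem top_mem_sites (hR : 1 ≤ R) : top b R ∈ sites (hbox b R) := by
  rw [mem_sites_hbox hR]
  simp only [top]
  omega

section

variable (hq : IsPolygon q) (hD : Encloses q D)
include hq hD

section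

variable (hF : Flt D (q l) R) (hR : 1 ≤ R) (hl : l < n) (h0 : q 0 ∉ sites (hbox (q l) R))
include hF hR hl h0

/-- The mass of a far charge for a confined piece. -/
theorem mass_far (hE : ∀ e ∈ A, e ∈ eds (hbox (q l) R)) (hI : ∀ e ∈ A, Inn (q l) R e)
    (hg : ∀ z, g z ≠ 0 → z ∈ sites D ∧ z ∉ sites (hbox (q l) R))
    [Decidable (Sep D A (q 0) (q l))] :
    mass D (q l) g A = if Sep D A (q 0) (q l) then ∑ᶠ z, g z else 0 := by
  refine mass_all (fun z hz => (hg z hz).1) fun z hz => ?_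
  obtain ⟨h1, h2⟩ := hg z hz
  constructor
  · rintro ⟨u, hu, h⟩
    exact ⟨u, hu, by rwa [pot_far hq hD hF hR hl h0 hu hE hI h1 h2] at h⟩
  · rintro ⟨u, hu, h⟩
    exact ⟨u, hu, by rwa [pot_far hq hD hF hR hl h0 hu hE hI h1 h2]⟩

theorem sep_top (hE : ∀ e ∈ A, e ∈ eds (hbox (q l) R)) (hI : ∀ e ∈ A, Inn (q l) R e) :
    Sep D A (q 0) (q l) ↔ Sep D A (top (q l) R) (q l) := by
  constructor
  · rintro ⟨u, hu, h⟩
    exact ⟨u, hu, by rwa [pot_top hq hD hF hR hl h0 hu hE hI]⟩
  · rintro ⟨u, hu, h⟩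
    exact ⟨u, hu, by rwa [pot_top hq hD hF hR hl h0 hu hE hI] at h⟩

/-- The mass of a confined piece, relative to the base site. -/
theorem mass_base (hA : A ∈ pcs ω D) (hE : ∀ e ∈ A, e ∈ eds (hbox (q l) R))
    (hI : ∀ e ∈ A, Inn (q l) R e) (hf : ∀ z, f z ≠ 0 → z ∈ sites (hbox (q l) R))
    (hg : ∀ z, g z ≠ 0 → z ∈ sites D ∧ z ∉ sites (hbox (q l) R)) (hs : ∑ᶠ z, g z = Real.pi / 3) :
    mass D (q l) (f - g) A = mass (hbox (q l) R) (q l)
      (fun z => f z - if z = top (q l) R then Real.pi / 3 else 0) A := by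
  classical
  have hex := exists_pot hq hD hA
  have hZD := hbox_sub hF
  have hZ := econ_hbox (b := q l) hR
  have hp := self_mem_sites (b := q l) hR
  have ht := top_mem_sites (b := q l) hR
  have e1 : (fun z => f z - if z = top (q l) R then Real.pi / 3 else 0) =
      f - fun z => if z = top (q l) R then Real.pi / 3 else 0 := rfl
  rw [e1, mass_sub, mass_sub, mass_sub_dom hZD hZ hex hp hf,
    mass_far hq hD hF hR hl h0 hE hI hg, hs]
  congr 1
  have hsum : ∑ᶠ z, (if z = top (q l) R then Real.pi / 3 else 0 : ℝ) = Real.pi / 3 := by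
    rw [finsum_eq_single _ (top (q l) R) (fun z hz => if_neg hz), if_pos rfl]
  rw [mass_all (f := fun z => if z = top (q l) R then Real.pi / 3 else 0)
    (P := Sep D A (q 0) (q l)) ?_ ?_, hsum]
  · intro z hz
    have : z = top (q l) R := by
      by_contra h
      exact hz (if_neg h)
    rw [this]
    exact ht
  · intro z hz
    have : z = top (q l) R := by
      by_contra h
      exact hz (if_neg h)
    rw [this, ← sep_sub hZD hZ hex ht hp, ← sep_top hq hD hF hR hl h0 hE hI]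

/-- The factor of the pieces which visit the small half box. -/
theorem prod_base (hr : r ≤ R) (hI : Iso (q l) r R ω)
    (hf : ∀ z, f z ≠ 0 → z ∈ sites (hbox (q l) R))
    (hg : ∀ z, g z ≠ 0 → z ∈ sites D ∧ z ∉ sites (hbox (q l) R)) (hs : ∑ᶠ z, g z = Real.pi / 3) :
    XZ D (q l) (f - g) (hbox (q l) r) ω = XL (q l) r R f ω := by
  classical
  rw [XL, if_pos hI, XZ, XZ]
  refine prod_congr ?_ ?_
  · ext A
    rw [mem_filter, mem_filter]
    exact iso_iff hF hr hI
  · intro A hA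
    rw [mem_filter] at hA
    obtain ⟨h1, h2⟩ := (iso_iff hF hr hI).2 hA
    obtain ⟨h3, h4⟩ := inn_of_iso hq hD hF hR hl h0 hr hI h1 h2
    rw [mass_base hq hD hF hR hl h0 h1 h3 h4 hf hg hs]
    unfold wp
    have := isLp_inn hq hD hF hR hl h0 h3 h4 (A := A)
    by_cases h : IsLp D A
    · rw [if_pos h, if_pos (this.1 h)]
    · rw [if_neg h, if_neg (fun h' => h (this.2 h'))]

/-- A far charge gives the weight one to the confined pieces. -/
theorem wp_far (hA : A ∈ pcs ω D) (hE : ∀ e ∈ A, e ∈ eds (hbox (q l) R))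
    (hI : ∀ e ∈ A, Inn (q l) R e)
    (hg : ∀ z, g z ≠ 0 → z ∈ sites D ∧ z ∉ sites (hbox (q l) R)) (hs : ∑ᶠ z, g z = Real.pi / 3) :
    wp D A (mass D (q l) (-g) A) = 1 := by
  classical
  rw [mass_neg, mass_far hq hD hF hR hl h0 hE hI hg, hs]
  by_cases hlp : IsLp D A
  · rw [if_neg, neg_zero, wp_zero]
    rintro ⟨u, hu, h⟩
    exact h (lp_bd hq hD hA hu hlp l).symm
  · split_ifs
    · rw [wp, if_neg hlp, ws_neg]
    · rw [neg_zero, wp_zero]

end

variable {R' : ℤ} (hF : Flt D (q l) R') (hr : 1 ≤ r) (hrR : r ≤ R) (hRR : R ≤ R') (hl : l < n)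
  (h0 : q 0 ∉ sites (hbox (q l) R'))
include hF hr hrR hRR hl h0

/-- **Only the far charge.** -/
theorem fact_one (hI' : Iso (q l) R R' ω)
    (hg : ∀ z, g z ≠ 0 → z ∈ sites D ∧ z ∉ sites (hbox (q l) R')) (hs : ∑ᶠ z, g z = Real.pi / 3) :
    XD D (q l) (-g) ω = ZO D (q l) R g ω := by
  classical
  rw [XD, ZO, ← prod_filter_mul_prod_filter_not (pcs ω D) (Vz (hbox (q l) R))]
  rw [prod_eq_one (s := (pcs ω D).filter (Vz (hbox (q l) R))), one_mul]
  intro A hA
  rw [mem_filter] at hA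
  obtain ⟨h3, h4⟩ := inn_of_iso hq hD hF (by omega) hl h0 hRR hI' hA.1 hA.2
  exact wp_far hq hD hF (by omega) hl h0 hA.1 h3 h4 hg hs

/-- **The bump at the base site and the far charge.** -/
theorem fact_two (hI : Iso (q l) r R ω) (hI' : Iso (q l) R R' ω)
    (hf : ∀ z, f z ≠ 0 → z ∈ sites (hbox (q l) r))
    (hg : ∀ z, g z ≠ 0 → z ∈ sites D ∧ z ∉ sites (hbox (q l) R')) (hs : ∑ᶠ z, g z = Real.pi / 3) :
    XD D (q l) (f - g) ω = XL (q l) r R f ω * ZO D (q l) R g ω := by
  classical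
  have hFR : Flt D (q l) R := hF.mono hRR
  have hsub : ∀ z, z ∉ sites (hbox (q l) R') → z ∉ sites (hbox (q l) R) := fun z h h' =>
    h (sites_mono (hbox_mono hRR) h')
  have hZr : hbox (q l) r ⊆ D := (hbox_mono hrR).trans (hbox_sub hFR)
  have hf' : ∀ z, f z ≠ 0 → z ∈ sites (hbox (q l) R) := fun z hz =>
    sites_mono (hbox_mono hrR) (hf z hz)
  have hm : ∀ A, ¬ Vz (hbox (q l) r) A → mass D (q l) (f - g) A = mass D (q l) (-g) A := by
    intro A hV
    rw [mass_sub, mass_near hZr (econ_hbox hr) hV (self_mem_sites hr) hf, mass_neg, zero_sub]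
  rw [← prod_base hq hD hFR (by omega) hl (hsub _ h0) hrR hI hf'
    (fun z hz => ⟨(hg z hz).1, hsub _ (hg z hz).2⟩) hs, XD, XZ, ZO,
    ← prod_filter_mul_prod_filter_not (pcs ω D) (Vz (hbox (q l) r))]
  congr 1
  rw [← prod_filter_mul_prod_filter_not ((pcs ω D).filter fun A => ¬ Vz (hbox (q l) r) A)
    (Vz (hbox (q l) R)), filter_filter, filter_filter]
  rw [prod_eq_one (s := (pcs ω D).filter fun A => ¬ Vz (hbox (q l) r) A ∧ Vz (hbox (q l) R) A),
    one_mul]
  · refine prod_congr ?_ ?_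
    · ext A
      rw [mem_filter, mem_filter]
      constructor
      · rintro ⟨h1, -, h3⟩
        exact ⟨h1, h3⟩
      · rintro ⟨h1, h3⟩
        exact ⟨h1, fun h => h3 (h.mono (hbox_mono hrR)), h3⟩
    · intro A hA
      rw [mem_filter] at hA
      rw [hm A (fun h => hA.2 (h.mono (hbox_mono hrR)))]
  · intro A hA
    rw [mem_filter] at hA
    obtain ⟨h3, h4⟩ := inn_of_iso hq hD hF (by omega) hl h0 hRR hI' hA.1 hA.2.2
    rw [hm A hA.2.1]
    exact wp_far hq hD hF (by omega) hl h0 hA.1 h3 h4 hg hs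

end

end Vale.Agent.P167.LOC
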