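import Vale.Agent.P167.LOC.Geo

/-!
# P167, LOC: the polygon of the discrete domain, flatness at the base site, size
-/

namespace Vale.Agent.P167.LOC

open MeasureTheory Filter Topology Set Metric
open Vale.Agent.P167.BVP (Test)
open Vale.Agent.P167.CA (cms enl cl mem_cl measurableSet_cl cms_eq)
open Vale.Agent.P167.E6 (pt region IsPolygon Encloses)
open Vale.Agent.P167.BR (Bmp Flt hbox sites)

section

variable (S : CA.Dat) (hr : S.r = 0)

include hr in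
theorem b_fst (n : ℕ) : (S.b n).1 = n * (S.p 0).1 + ⌊S.tp * n⌋₊ := by
  unfold CA.Dat.b
  rw [hr]
  simp [E6.dir]

include hr in
theorem b_snd (n : ℕ) : (S.b n).2 = n * (S.p 0).2 := by
  unfold CA.Dat.b
  rw [hr]
  simp [E6.dir]

theorem floor_le' (n : ℕ) : (⌊S.tp * n⌋₊ : ℝ) ≤ S.tp * n :=
  Nat.floor_le (mul_nonneg S.tp0.le (Nat.cast_nonneg n))

theorem lt_floor' (n : ℕ) : S.tp * n < (⌊S.tp * n⌋₊ : ℝ) + 1 := Nat.lt_floor_add_one _

theorem floor_lt' {n : ℕ} (hn : 0 < n) : ⌊S.tp * n⌋₊ < n := by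
  have hn' : (0 : ℝ) < n := by exact_mod_cast hn
  have h1 := floor_le' S n
  have h2 : S.tp * n < 1 * n := mul_lt_mul_of_pos_right S.tp1 hn'
  have : (⌊S.tp * n⌋₊ : ℝ) < n := by linarith
  exact_mod_cast this

include hr in
theorem bp_re : S.bp.re = (S.p 0).1 + S.tp := by
  unfold CA.Dat.bp
  rw [hr]
  simp [E6.dir, pt]

include hr in
theorem bp_im : S.bp.im = (S.p 0).2 := by
  unfold CA.Dat.bp
  rw [hr]
  simp [E6.dir, pt]

include hr in
/-- The base site is close to the base point. -/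
theorem b_close (n : ℕ) : |n * S.bp.re - (S.b n).1| ≤ 1 ∧ n * S.bp.im = (S.b n).2 := by
  rw [bp_re S hr, bp_im S hr, b_fst S hr, b_snd S hr]
  push_cast
  refine ⟨?_, by ring⟩
  have h1 := floor_le' S n
  have h2 := lt_floor' S n
  rw [abs_le]
  constructor <;> nlinarith

/-- The polygon of the discrete domain. -/
theorem exists_poly {n : ℕ} (hn : 0 < n) : ∃ (m : ℕ) (q : ZMod m → ℤ × ℤ), IsPolygon q ∧
    Encloses q (S.D n) ∧ q 0 = S.b n := by
  refine ⟨n * S.l, CL.re S.p n ⌊S.tp * n⌋₊, CL.re_poly S.poly hn _, CL.re_encl S.poly S.enc hn _, ?_⟩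
  have h1 := CL.re_nat (q := S.p) hn ⌊S.tp * n⌋₊ 0
  rw [Nat.cast_zero, zero_add] at h1
  rw [h1]
  have h2 := CL.pe_mul_add (q := S.p) hn 0 (floor_lt' S hn)
  rw [mul_zero, zero_add, Nat.cast_zero, zero_add, S.step, add_sub_cancel_left] at h2
  rw [h2]
  rfl

include hr in
/-- Flatness at the base site. -/
theorem flt_dat : ∃ K₀ > 0, ∀ K ≥ K₀, ∀ᶠ n : ℕ in atTop, Flt (S.D n) (S.b n) ⌊(((n : ℤ) : ℝ)) / K⌋ := by
  set t : ℝ := min S.tp (1 - S.tp) with ht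
  have ht0 : 0 < t := lt_min S.tp0 (by linarith [S.tp1])
  have ht1 : t ≤ S.tp := min_le_left _ _
  have ht2 : t ≤ 1 - S.tp := min_le_right _ _
  refine ⟨2 / t, by positivity, fun K hK => ?_⟩
  have hK0 : 0 < K := lt_of_lt_of_le (by positivity) hK
  have hev : ∀ᶠ n : ℕ in atTop, 4 / t < (n : ℝ) :=
    tendsto_natCast_atTop_atTop.eventually_gt_atTop _
  filter_upwards [hev, eventually_gt_atTop 0] with n hn hn0
  have hn' : (0 : ℝ) < n := by exact_mod_cast hn0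
  have hnz : (0 : ℤ) < n := by exact_mod_cast hn0
  have hR : (⌊(((n : ℤ) : ℝ)) / K⌋ : ℝ) ≤ n * (t / 2) := by
    refine (Int.floor_le _).trans ?_
    rw [div_le_iff₀ hK0]
    have : 1 ≤ t / 2 * K := by
      rw [ge_iff_le, div_le_iff₀ ht0] at hK
      nlinarith
    push_cast
    nlinarith
  rw [div_lt_iff₀ ht0] at hn
  have h1 := floor_le' S n
  have h2 := lt_floor' S n
  generalize ⌊(((n : ℤ) : ℝ)) / K⌋ = R at hR ⊢
  intro v v1 v2 v3 v4
  rw [b_fst S hr] at v1 v2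
  rw [b_snd S hr] at v3 v4 ⊢
  have c1 : ((n * (S.p 0).1 + ⌊S.tp * n⌋₊ - R : ℤ) : ℝ) ≤ v.1 := by exact_mod_cast v1
  have c2 : ((v.1 : ℤ) : ℝ) < ((n * (S.p 0).1 + ⌊S.tp * n⌋₊ + R : ℤ) : ℝ) := by
    exact_mod_cast v2
  have c3 : ((n * (S.p 0).2 - R : ℤ) : ℝ) ≤ v.2 := by exact_mod_cast v3
  have c4 : ((v.2 : ℤ) : ℝ) < ((n * (S.p 0).2 + R : ℤ) : ℝ) := by
    exact_mod_cast v4
  push_cast at c1 c2 c3 c4
  have d1 : (n * (S.p 0).1 : ℤ) ≤ v.1 := by
    have : ((n * (S.p 0).1 : ℤ) : ℝ) ≤ v.1 := by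
      push_cast
      have := mul_le_mul_of_nonneg_left ht1 hn'.le
      linarith
    exact_mod_cast this
  have d2 : v.1 < n * (S.p 0).1 + n := by
    have : ((v.1 : ℤ) : ℝ) < ((n * (S.p 0).1 + n : ℤ) : ℝ) := by
      push_cast
      have := mul_le_mul_of_nonneg_left ht2 hn'.le
      linarith
    exact_mod_cast this
  have d3 : (n * (S.p 0).2 : ℤ) - n ≤ v.2 := by
    have : ((n * (S.p 0).2 - n : ℤ) : ℝ) ≤ v.2 := by
      push_cast
      have := mul_le_mul_of_nonneg_left (ht1.trans S.tp1.le) hn'.le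
      linarith
    exact_mod_cast this
  have d4 : v.2 < n * (S.p 0).2 + n := by
    have : ((v.2 : ℤ) : ℝ) < ((n * (S.p 0).2 + n : ℤ) : ℝ) := by
      push_cast
      have := mul_le_mul_of_nonneg_left (ht1.trans S.tp1.le) hn'.le
      linarith
    exact_mod_cast this
  have hin : E6.face (S.p 0) 0 ∈ S.Q := by
    have := ((S.enc (S.p 0) S.r).1 ⟨0, rfl, by rw [zero_add]; exact S.step⟩).1
    rwa [hr] at this
  have hout : E6.face (S.p 0) (0 - 1) ∉ S.Q := by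
    have := ((S.enc (S.p 0) S.r).1 ⟨0, rfl, by rw [zero_add]; exact S.step⟩).2
    rwa [hr] at this
  rw [E2.face0] at hin
  rw [E2.f4_0m, E2.face3] at hout
  unfold CA.Dat.D
  rw [CL.mem_enl_iff hn0]
  have e1 : v.1 / n = (S.p 0).1 := by
    rw [Int.ediv_eq_iff_of_pos hnz]
    constructor <;> nlinarith
  rw [e1]
  constructor
  · intro h
    by_contra hlt
    push Not at hlt
    have e2 : v.2 / n = (S.p 0).2 - 1 := by
      rw [Int.ediv_eq_iff_of_pos hnz]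
      constructor <;> nlinarith
    rw [e2] at h
    exact hout h
  · intro h
    have e2 : v.2 / n = (S.p 0).2 := by
      rw [Int.ediv_eq_iff_of_pos hnz]
      constructor <;> nlinarith
    rw [e2]
    exact hin

include hr in
/-- Size of the domain. -/
theorem size_dat : ∃ K₀ > 0, ∀ K ≥ K₀, ∀ᶠ n : ℕ in atTop, ∀ v ∈ S.D n,
    (nm (v - S.b n) : ℝ) ≤ K * ((n : ℤ) : ℝ) := by
  obtain ⟨M, hM⟩ : ∃ M : ℝ, ∀ q ∈ S.Q, |(q.1 : ℝ) - (S.p 0).1| ≤ M ∧ |(q.2 : ℝ) - (S.p 0).2| ≤ M := by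
    obtain ⟨M, hM⟩ := (S.Q.finite_toSet.image
      (fun q : ℤ × ℤ => max |(q.1 : ℝ) - (S.p 0).1| |(q.2 : ℝ) - (S.p 0).2|)).bddAbove
    refine ⟨M, fun q hq => ?_⟩
    have := hM ⟨q, hq, rfl⟩
    exact ⟨(le_max_left _ _).trans this, (le_max_right _ _).trans this⟩
  refine ⟨max M 0 + 2, by positivity, fun K hK => ?_⟩
  filter_upwards [eventually_gt_atTop 0] with n hn0 v hv
  have hn' : (0 : ℝ) < n := by exact_mod_cast hn0
  have hnz : (0 : ℤ) < n := by exact_mod_cast hn0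
  have hMK : M + 2 ≤ K := by linarith [le_max_left M 0]
  have hMK' : 2 ≤ K := by linarith [le_max_right M 0]
  unfold CA.Dat.D at hv
  rw [CL.mem_enl_iff hn0] at hv
  obtain ⟨h1, h2⟩ := hM _ hv
  simp only at h1 h2
  have e1 := Int.mul_ediv_add_emod v.1 n
  have e2 := Int.emod_nonneg v.1 hnz.ne'
  have e3 := Int.emod_lt_of_pos v.1 hnz
  have e4 := Int.mul_ediv_add_emod v.2 n
  have e5 := Int.emod_nonneg v.2 hnz.ne'
  have e6 := Int.emod_lt_of_pos v.2 hnz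
  have f1 : (n : ℝ) * ((v.1 / n : ℤ) : ℝ) + ((v.1 % n : ℤ) : ℝ) = v.1 := by exact_mod_cast e1
  have f2 : (0 : ℝ) ≤ ((v.1 % n : ℤ) : ℝ) := by exact_mod_cast e2
  have f3 : ((v.1 % n : ℤ) : ℝ) < n := by exact_mod_cast e3
  have f4 : (n : ℝ) * ((v.2 / n : ℤ) : ℝ) + ((v.2 % n : ℤ) : ℝ) = v.2 := by exact_mod_cast e4
  have f5 : (0 : ℝ) ≤ ((v.2 % n : ℤ) : ℝ) := by exact_mod_cast e5
  have f6 : ((v.2 % n : ℤ) : ℝ) < n := by exact_mod_cast e6
  have g1 := floor_le' S n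
  have g2 : (0 : ℝ) ≤ (⌊S.tp * n⌋₊ : ℝ) := Nat.cast_nonneg _
  have g3 : S.tp * n ≤ n := by nlinarith [S.tp1]
  rw [nm_le_iff]
  simp only [Prod.fst_sub, Prod.snd_sub]
  rw [b_fst S hr, b_snd S hr]
  push_cast
  rw [abs_le] at h1 h2
  constructor
  · rw [abs_le]
    constructor <;> nlinarith [h1.1, h1.2]
  · rw [abs_le]
    constructor <;> nlinarith [h2.1, h2.2]

end

end Vale.Agent.P167.LOC
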